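import Vale.Agent.P248.Three.Defs

/-!
# P248: a vertical motion of a polytope that keeps its facets
-/

open MeasureTheory Set
open scoped Pointwise ENNReal

namespace Vale.Agent.P248.Three

variable {m k : ℕ} {v : Fin m → R3} {a : Fin k → R3} {α : Fin m → ℝ} {r : Fin k → R3}

lemma dot_e3 (x : R3) : dot x e3 = x 2 := by simp [dot, e3, Pi.single_apply]

lemma dot_add_right (x y z : R3) : dot x (y + z) = dot x y + dot x z := by
  rw [dot_comm, dot_add, dot_comm y, dot_comm z]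

lemma dot_sub_right (x y z : R3) : dot x (y - z) = dot x y - dot x z := by
  rw [sub_eq_add_neg, dot_add_right, show -z = (-1 : ℝ) • z by simp, dot_smul_right]
  ring

lemma dot_move (c x : R3) (s : ℝ) : dot c (x + s • e3) = dot c x + s * c 2 := by
  rw [dot_add_right, dot_smul_right, dot_e3]

/-- The pairing with a fixed vector, as a linear map. -/
noncomputable def dotL (c : R3) : R3 →ₗ[ℝ] ℝ where
  toFun := dot c
  map_add' := dot_add_right c
  map_smul' s x := dot_smul_right s c x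

@[simp] lemma dotL_apply (c x : R3) : dotL c x = dot c x := rfl

lemma dot_sum {ι : Type*} (s : Finset ι) (c : R3) (f : ι → R3) :
    dot c (∑ i ∈ s, f i) = ∑ i ∈ s, dot c (f i) :=
  map_sum (dotL c) f s

lemma linear_eq_dot (f : R3 →ₗ[ℝ] ℝ) (x : R3) : f x = dot (fun i => f (Pi.single i 1)) x := by
  conv_lhs => rw [pi_eq_sum_univ' x, map_sum]
  exact Finset.sum_congr rfl fun i _ => by rw [map_smul, smul_eq_mul, mul_comm]

lemma convexHull_subset_le {S : Set R3} {c : R3} {γ : ℝ} (h : ∀ x ∈ S, dot c x ≤ γ) :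
    convexHull ℝ S ⊆ {x | dot c x ≤ γ} :=
  convexHull_min h (convex_halfSpace_le (dotL c).isLinear γ)

lemma isClosed_halfspaces {k : ℕ} (A : Fin k → R3) (B : Fin k → ℝ) :
    IsClosed {x : R3 | ∀ j, dot (A j) x ≤ B j} := by
  rw [Set.ofPred_forall]
  exact isClosed_iInter fun j => isClosed_le (continuous_dot_right _) continuous_const

lemma dot_lt_of_interior {S : Set R3} {c : R3} {γ : ℝ} (hS : S ⊆ {x | dot c x ≤ γ}) (hc : c ≠ 0)
    {w : R3} (hw : w ∈ interior S) : dot c w < γ := by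
  obtain ⟨ε, hε, hb⟩ := Metric.mem_nhds_iff.1 (mem_interior_iff_mem_nhds.1 hw)
  have hn : 0 < ‖c‖ := norm_pos_iff.2 hc
  have h1 : w + (ε / (2 * ‖c‖)) • c ∈ S := hb (by
    rw [Metric.mem_ball, dist_eq_norm, add_sub_cancel_left, norm_smul, Real.norm_eq_abs,
      abs_of_pos (div_pos hε (by positivity))]
    field_simp
    linarith)
  have h2 : dot c (w + (ε / (2 * ‖c‖)) • c) ≤ γ := hS h1
  rw [dot_add_right, dot_smul_right] at h2
  have h3 : 0 < dot c c := by
    refine Finset.sum_pos' (fun i _ => mul_self_nonneg _) ?_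
    obtain ⟨i, hi⟩ : ∃ i, c i ≠ 0 := Function.ne_iff.1 hc
    exact ⟨i, Finset.mem_univ i, mul_self_pos.2 hi⟩
  nlinarith [div_pos hε (show (0:ℝ) < 2 * ‖c‖ by positivity)]

/-- A convex set in space that lies in no plane has interior points. -/
lemma interior_nonempty_of_not_flat {S : Set R3} (hS : Convex ℝ S)
    (hne : S.Nonempty) (h : ∀ (c : R3) (γ : ℝ), (∀ x ∈ S, dot c x = γ) → c = 0) :
    (interior S).Nonempty := by
  rw [← hS.convexHull_eq, interior_convexHull_nonempty_iff_affineSpan_eq_top,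
    AffineSubspace.affineSpan_eq_top_iff_vectorSpan_eq_top_of_nonempty ℝ _ _ hne]
  by_contra hlt
  obtain ⟨f, hf, hker⟩ := Submodule.exists_le_ker_of_lt_top _ (lt_top_iff_ne_top.2 hlt)
  obtain ⟨x₀, hx₀⟩ := hne
  have hc := h (fun i => f (Pi.single i 1)) (f x₀) fun x hx => by
    have h0 : f (x - x₀) = 0 := hker (vsub_mem_vectorSpan ℝ hx hx₀)
    rw [map_sub, sub_eq_zero] at h0
    rw [← linear_eq_dot, h0]
  refine hf (LinearMap.ext fun x => ?_)
  rw [linear_eq_dot, hc]
  simp [dot]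

lemma mem_contacts {i : Fin m} {j : Fin k} : i ∈ contacts v a j ↔ dot (a j) (v i) = 1 := by
  simp [contacts]

lemma Dual.le_one (h : Dual v a) {x : R3} (hx : x ∈ convexHull ℝ (range v)) (j : Fin k) :
    dot (a j) x ≤ 1 := by
  rw [h.eq] at hx; exact hx j

lemma Dual.le_one' (h : Dual v a) (i : Fin m) (j : Fin k) : dot (a j) (v i) ≤ 1 :=
  h.le_one (subset_convexHull ℝ _ ⟨i, rfl⟩) j

lemma mem_hull_iff {w : Fin m → R3} {x : R3} : x ∈ convexHull ℝ (range w) ↔
    ∃ lam : Fin m → ℝ, (∀ i, 0 ≤ lam i) ∧ ∑ i, lam i = 1 ∧ ∑ i, lam i • w i = x := by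
  constructor
  · intro hx
    have hc : Convex ℝ {x | ∃ lam : Fin m → ℝ, (∀ i, 0 ≤ lam i) ∧ ∑ i, lam i = 1 ∧
        ∑ i, lam i • w i = x} := by
      rintro _ ⟨l, l0, l1, rfl⟩ _ ⟨μ, μ0, μ1, rfl⟩ p q hp hq hpq
      refine ⟨fun i => p * l i + q * μ i, fun i => add_nonneg (mul_nonneg hp (l0 i))
        (mul_nonneg hq (μ0 i)), ?_, ?_⟩
      · rw [Finset.sum_add_distrib, ← Finset.mul_sum, ← Finset.mul_sum, l1, μ1]; linarith
      · simp only [add_smul, Finset.sum_add_distrib, Finset.smul_sum, smul_smul]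
    refine convexHull_min ?_ hc hx
    rintro _ ⟨i, rfl⟩
    exact ⟨Pi.single i 1, fun l => by by_cases h : l = i <;> simp [h], by simp,
      by simp [Pi.single_apply, ite_smul]⟩
  · rintro ⟨l, l0, l1, rfl⟩
    exact (convex_convexHull ℝ _).sum_mem (fun i _ => l0 i) l1
      fun i _ => subset_convexHull ℝ _ ⟨i, rfl⟩

lemma Dual.exists_facet (h : Dual v a) {σ : ℝ} (hσ : σ ≠ 0) : ∃ j, 0 < σ * a j 2 := by
  by_contra hno
  push Not at hno
  obtain ⟨R, hR⟩ := h.good.cpt.isBounded.exists_norm_le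
  have hx : ((|R| + 1) / |σ| * σ) • e3 ∈ convexHull ℝ (range v) := by
    rw [h.eq]
    intro j
    rw [dot_smul_right, dot_e3]
    have h1 := mul_le_mul_of_nonneg_left (hno j)
      (show (0:ℝ) ≤ (|R| + 1) / |σ| by positivity)
    linarith
  have h2 := hR _ hx
  rw [norm_smul, show ‖e3‖ = 1 by simp [e3, Pi.norm_single], mul_one, Real.norm_eq_abs, abs_mul,
    abs_div, abs_abs, div_mul_cancel₀ _ (abs_ne_zero.2 hσ), abs_of_pos (by positivity)] at h2
  linarith [le_abs_self R]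

/-- Leaving a body vertically: the last point lies on a facet that is not vertical. -/
lemma Dual.exists_last (h : Dual v a) {σ : ℝ} (hσ : σ ≠ 0) {x : R3}
    (hx : x ∈ convexHull ℝ (range v)) :
    ∃ s : ℝ, 0 ≤ s ∧ x + (s * σ) • e3 ∈ convexHull ℝ (range v) ∧
      ∃ j, 0 < σ * a j 2 ∧ dot (a j) (x + (s * σ) • e3) = 1 := by
  classical
  set S := Finset.univ.filter fun j => 0 < σ * a j 2
  obtain ⟨j₀, hj₀⟩ := h.exists_facet hσ
  obtain ⟨j, hj, hmin⟩ := S.exists_min_image (fun j => (1 - dot (a j) x) / (σ * a j 2))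
    ⟨j₀, by simp [S, hj₀]⟩
  have hj' : 0 < σ * a j 2 := (Finset.mem_filter.1 hj).2
  set s := (1 - dot (a j) x) / (σ * a j 2) with hs
  have hs0 : 0 ≤ s := div_nonneg (sub_nonneg.2 (h.le_one hx j)) hj'.le
  refine ⟨s, hs0, ?_, j, hj', ?_⟩
  · rw [h.eq]
    intro l
    rw [dot_move, mul_assoc]
    by_cases hl : 0 < σ * a l 2
    · have := hmin l (by simp [S, hl])
      rw [le_div_iff₀ hl] at this
      linarith
    · have := mul_nonpos_of_nonneg_of_nonpos hs0 (not_lt.1 hl)
      linarith [h.le_one hx l]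
  · rw [dot_move, mul_assoc, hs, div_mul_cancel₀ _ hj'.ne']
    ring

/-- The defect of a vertex from a moving facet, to first order. -/
noncomputable def rate (v : Fin m → R3) (a : Fin k → R3) (α : Fin m → ℝ) (r : Fin k → R3)
    (i : Fin m) (j : Fin k) : ℝ :=
  r j 2 * (1 - dot (a j) (v i)) + a j 2 * (dot (r j) (v i) - α i)

/-- The moved points. -/
noncomputable def vt (v : Fin m → R3) (α : Fin m → ℝ) (t : ℝ) (i : Fin m) : R3 :=
  v i + (t * α i) • e3

/-- The normals of the moved facets. -/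
noncomputable def At (a r : Fin k → R3) (t : ℝ) (j : Fin k) : R3 :=
  a j + t • (r j 2 • a j - a j 2 • r j)

/-- The levels of the moved facets. -/
def Bt (r : Fin k → R3) (t : ℝ) (j : Fin k) : ℝ := 1 + t * r j 2

/-- The moved body. -/
noncomputable def Kt (v : Fin m → R3) (α : Fin m → ℝ) (t : ℝ) : Set R3 :=
  convexHull ℝ (range (vt v α t))

/-- All points stay below all moved facets on the interval `[-T, T]`. -/
structure Motion (v : Fin m → R3) (a : Fin k → R3) (α : Fin m → ℝ) (r : Fin k → R3) (T : ℝ) :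
    Prop where
  dual : Dual v a
  pos : 0 < T
  vert : ∀ j, a j 2 = 0 → r j = 0
  contact : ∀ i j, dot (a j) (v i) = 1 → rate v a α r i j = 0
  valid : ∀ t, |t| ≤ T → ∀ i j, 0 ≤ (1 - dot (a j) (v i)) + t * rate v a α r i j

lemma At_two (a r : Fin k → R3) (t : ℝ) (j : Fin k) : At a r t j 2 = a j 2 := by
  simp only [At, Pi.add_apply, Pi.smul_apply, Pi.sub_apply, smul_eq_mul]; ring

lemma vt_zero (v : Fin m → R3) (α : Fin m → ℝ) : vt v α 0 = v := funext fun i => by simp [vt]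

lemma Kt_zero (v : Fin m → R3) (α : Fin m → ℝ) : Kt v α 0 = convexHull ℝ (range v) := by
  rw [Kt, vt_zero]

lemma gap_eq (t : ℝ) (i : Fin m) (j : Fin k) :
    Bt r t j - dot (At a r t j) (vt v α t i) =
      (1 - dot (a j) (v i)) + t * rate v a α r i j := by
  have h1 : dot (At a r t j) (vt v α t i) = dot (At a r t j) (v i) + t * α i * a j 2 := by
    rw [vt, dot_move, At_two]
  have h2 : dot (At a r t j) (v i) =
      dot (a j) (v i) + t * (r j 2 * dot (a j) (v i) - a j 2 * dot (r j) (v i)) := by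
    rw [At, dot_add, dot_smul, sub_eq_add_neg, dot_add, dot_smul, ← neg_smul, dot_smul]
    ring
  rw [h1, h2, Bt, rate]
  ring

namespace Motion

variable {T t : ℝ} (M : Motion v a α r T)
include M

lemma vt_le (ht : |t| ≤ T) (i : Fin m) (j : Fin k) :
    dot (At a r t j) (vt v α t i) ≤ Bt r t j := by
  have := M.valid t ht i j
  rw [← gap_eq] at this
  linarith

lemma Kt_subset (ht : |t| ≤ T) : Kt v α t ⊆ {x | ∀ j, dot (At a r t j) x ≤ Bt r t j} :=
  fun x hx j => convexHull_subset_le (S := range (vt v α t))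
    (by rintro _ ⟨i, rfl⟩; exact M.vt_le ht i j) hx

/-- A combination of contacts moves with its facet. -/
lemma moved_top {lam : Fin m → ℝ} (l1 : ∑ i, lam i = 1) {j : Fin k}
    (hl : ∀ i, lam i ≠ 0 → dot (a j) (v i) = 1) :
    dot (At a r t j) (∑ i, lam i • vt v α t i) = Bt r t j := by
  rw [dot_sum, ← mul_one (Bt r t j), ← l1, Finset.mul_sum]
  refine Finset.sum_congr rfl fun i _ => ?_
  rw [dot_smul_right]
  by_cases h0 : lam i = 0
  · simp [h0]
  · have := gap_eq (v := v) (a := a) (α := α) (r := r) t i j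
    rw [hl i h0, M.contact i j (hl i h0), sub_self, zero_add, mul_zero, sub_eq_zero] at this
    rw [← this]; ring

omit M in
lemma sum_vt (lam : Fin m → ℝ) (t : ℝ) :
    ∑ i, lam i • vt v α t i = ∑ i, lam i • v i + (t * ∑ i, lam i * α i) • e3 := by
  simp only [vt, smul_add, Finset.sum_add_distrib, smul_smul, ← Finset.sum_smul]
  congr 2
  rw [Finset.mul_sum]
  exact Finset.sum_congr rfl fun i _ => by ring

/-- The extreme point of the moved body in a vertical direction. -/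
lemma exists_end {σ : ℝ} (hσ : σ ≠ 0) {x : R3} (hx : x ∈ convexHull ℝ (range v)) :
    ∃ (s β : ℝ) (lam : Fin m → ℝ) (j : Fin k), (∀ i, 0 ≤ lam i) ∧ ∑ i, lam i = 1 ∧
      0 < σ * a j 2 ∧ (∀ i, lam i ≠ 0 → dot (a j) (v i) = 1) ∧
      (∀ t : ℝ, ∑ i, lam i • vt v α t i = x + (s + t * β) • e3) ∧
      ∀ t : ℝ, |t| ≤ T → x + (s + t * β) • e3 ∈ Kt v α t ∧
        ∀ u : ℝ, (∀ j, dot (At a r t j) (x + u • e3) ≤ Bt r t j) → σ * u ≤ σ * (s + t * β) := by
  obtain ⟨s, -, hp, j, hj, hj1⟩ := M.dual.exists_last hσ hx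
  obtain ⟨lam, l0, l1, l2⟩ := mem_hull_iff.1 hp
  have hl : ∀ i, lam i ≠ 0 → dot (a j) (v i) = 1 := by
    have hsum : ∑ i, lam i * (1 - dot (a j) (v i)) = 0 := by
      simp only [mul_sub, mul_one, Finset.sum_sub_distrib, l1, ← dot_smul_right, ← dot_sum, l2,
        hj1, sub_self]
    intro i hi
    have := (Finset.sum_eq_zero_iff_of_nonneg fun i _ =>
      mul_nonneg (l0 i) (sub_nonneg.2 (M.dual.le_one' i j))).1 hsum i (Finset.mem_univ i)
    rcases mul_eq_zero.1 this with h | h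
    · exact absurd h hi
    · linarith
  have he : ∀ t : ℝ, ∑ i, lam i • vt v α t i = x + (s * σ + t * ∑ i, lam i * α i) • e3 := fun t => by
    rw [sum_vt, l2, add_smul, add_assoc]
  refine ⟨s * σ, ∑ i, lam i * α i, lam, j, l0, l1, hj, hl, he, fun t ht =>
    ⟨mem_hull_iff.2 ⟨lam, l0, l1, he t⟩, fun u hu => ?_⟩⟩
  have h1 := M.moved_top (t := t) l1 hl
  rw [he, dot_move, At_two] at h1
  have h2 := hu j
  rw [dot_move, At_two] at h2
  have h3 : (u - (s * σ + t * ∑ i, lam i * α i)) * a j 2 ≤ 0 := by linarith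
  nlinarith [mul_le_mul_of_nonneg_left h3 (sq_nonneg σ)]

/-- The moved fibre over a point of the body. -/
lemma exists_fibre {x : R3} (hx : x ∈ convexHull ℝ (range v)) :
    ∃ s₁ β₁ s₂ β₂ : ℝ, ∀ t, |t| ≤ T → s₁ + t * β₁ ≤ s₂ + t * β₂ ∧ ∀ u : ℝ,
      ((∀ j, dot (At a r t j) (x + u • e3) ≤ Bt r t j) →
        s₁ + t * β₁ ≤ u ∧ u ≤ s₂ + t * β₂) ∧
      (s₁ + t * β₁ ≤ u → u ≤ s₂ + t * β₂ → x + u • e3 ∈ Kt v α t) := by
  obtain ⟨s₂, β₂, -, -, -, -, -, -, -, h2⟩ := M.exists_end (σ := 1) one_ne_zero hx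
  obtain ⟨s₁, β₁, -, -, -, -, -, -, -, h1⟩ := M.exists_end (σ := -1) (by norm_num) hx
  refine ⟨s₁, β₁, s₂, β₂, fun t ht => ?_⟩
  obtain ⟨a1, b1⟩ := h1 t ht
  obtain ⟨a2, b2⟩ := h2 t ht
  have hle : s₁ + t * β₁ ≤ s₂ + t * β₂ := by
    have := b2 _ (M.Kt_subset ht a1)
    linarith
  refine ⟨hle, fun u => ⟨fun hu => ⟨by linarith [b1 u hu], by linarith [b2 u hu]⟩, fun l1 l2 => ?_⟩⟩
  rcases eq_or_lt_of_le hle with e | e
  · rwa [show u = s₁ + t * β₁ by linarith]
  · have := (convex_convexHull ℝ _).add_smul_sub_mem (x := x + (s₁ + t * β₁) • e3)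
      (y := x + (s₂ + t * β₂) • e3) a1 a2
      (t := (u - (s₁ + t * β₁)) / (s₂ + t * β₂ - (s₁ + t * β₁)))
      ⟨div_nonneg (by linarith) (by linarith), (div_le_one (by linarith)).2 (by linarith)⟩
    rw [add_sub_add_left_eq_sub, ← sub_smul, smul_smul, div_mul_cancel₀ _ (by linarith), add_assoc,
      ← add_smul] at this
    rwa [show s₁ + t * β₁ + (u - (s₁ + t * β₁)) = u by ring] at this

end Motion

/-- Being vertically above or below the body. -/
def Over (v : Fin m → R3) (x : R3) : Prop := ∃ s : ℝ, x + s • e3 ∈ convexHull ℝ (range v)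

lemma over_of_mem_Kt {t : ℝ} {x : R3} (hx : x ∈ Kt v α t) : Over v x := by
  obtain ⟨lam, l0, l1, rfl⟩ := mem_hull_iff.1 hx
  refine ⟨-(t * ∑ i, lam i * α i), mem_hull_iff.2 ⟨lam, l0, l1, ?_⟩⟩
  rw [Motion.sum_vt, neg_smul]
  abel

lemma Motion.mem_Kt_of_over {T t : ℝ} (M : Motion v a α r T) (ht : |t| ≤ T) {x : R3}
    (ho : Over v x) (hx : ∀ j, dot (At a r t j) x ≤ Bt r t j) : x ∈ Kt v α t := by
  obtain ⟨s, hs⟩ := ho
  obtain ⟨s₁, β₁, s₂, β₂, hf⟩ := M.exists_fibre hs
  have h0 : x + s • e3 + (-s) • e3 = x := by rw [add_assoc, ← add_smul, add_neg_cancel, zero_smul,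
    add_zero]
  obtain ⟨-, hu⟩ := hf t ht
  obtain ⟨hu1, hu2⟩ := hu (-s)
  obtain ⟨l1, l2⟩ := hu1 (by rw [h0]; exact hx)
  have := hu2 l1 l2
  rwa [h0] at this

/-- The volume is affine along the motion. -/
theorem Motion.volume_affine {T t : ℝ} (M : Motion v a α r T) (ht : |t| ≤ T) :
    2 * T * volume.real (Kt v α t) =
      (T + t) * volume.real (Kt v α T) + (T - t) * volume.real (Kt v α (-T)) := by
  have hc : ∀ t, IsCompact (Kt v α t) := fun t => (finite_range _).isCompact_convexHull ℝ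
  let e := MeasurableEquiv.piFinSuccAbove (fun _ : Fin 3 => ℝ) 2
  have he : MeasurePreserving e volume (volume.prod volume) :=
    volume_preserving_piFinSuccAbove (fun _ : Fin 3 => ℝ) 2
  have hsymm : ∀ (u : ℝ) (y : Fin 2 → ℝ), e.symm (u, y) = e.symm (0, y) + u • e3 := fun u y => by
    funext l
    rcases Fin.eq_self_or_eq_succAbove (2 : Fin 3) l with rfl | ⟨q, rfl⟩
    · simp [e, MeasurableEquiv.piFinSuccAbove, Fin.insertNthEquiv, e3]
    · simp [e, MeasurableEquiv.piFinSuccAbove, Fin.insertNthEquiv, e3]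
  have hvol : ∀ t, volume (Kt v α t) =
      ∫⁻ y : Fin 2 → ℝ, volume {u : ℝ | e.symm (0, y) + u • e3 ∈ Kt v α t} ∧
      Measurable fun y : Fin 2 → ℝ => volume {u : ℝ | e.symm (0, y) + u • e3 ∈ Kt v α t} := by
    intro t
    have hm : MeasurableSet (e.symm ⁻¹' Kt v α t) := (hc t).measurableSet.preimage e.symm.measurable
    have hs : ∀ y : Fin 2 → ℝ, (fun u : ℝ => (u, y)) ⁻¹' (e.symm ⁻¹' Kt v α t) =
        {u : ℝ | e.symm (0, y) + u • e3 ∈ Kt v α t} := fun y => by
      ext u; simp only [mem_preimage, mem_ofPred_eq, hsymm u y]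
    refine ⟨?_, ?_⟩
    · rw [← (he.symm e).measure_preimage (hc t).measurableSet.nullMeasurableSet,
        Measure.prod_apply_symm hm]
      exact lintegral_congr fun y => by rw [hs]
    · have := measurable_measure_prodMk_right (μ := (volume : Measure ℝ)) hm
      simpa only [hs] using this
  have hT : |T| ≤ T := (abs_of_pos M.pos).le
  have hT' : |(-T)| ≤ T := by rw [abs_neg]; exact hT
  have hp : 0 ≤ T + t := by linarith [(abs_le.1 ht).1]
  have hm : 0 ≤ T - t := by linarith [(abs_le.1 ht).2]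
  have h2T : 0 ≤ 2 * T := by linarith [M.pos]
  have key : ∀ y : Fin 2 → ℝ,
      ENNReal.ofReal (2 * T) * volume {u : ℝ | e.symm (0, y) + u • e3 ∈ Kt v α t} =
        ENNReal.ofReal (T + t) * volume {u : ℝ | e.symm (0, y) + u • e3 ∈ Kt v α T} +
          ENNReal.ofReal (T - t) * volume {u : ℝ | e.symm (0, y) + u • e3 ∈ Kt v α (-T)} := by
    intro y
    set x := e.symm (0, y)
    by_cases ho : Over v x
    · obtain ⟨s, hs⟩ := ho
      obtain ⟨s₁, β₁, s₂, β₂, hf⟩ := M.exists_fibre hs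
      have hset : ∀ t, |t| ≤ T → {u : ℝ | x + u • e3 ∈ Kt v α t} =
          Icc (s + s₁ + t * β₁) (s + s₂ + t * β₂) := by
        intro t ht
        ext u
        have h0 : x + s • e3 + (u - s) • e3 = x + u • e3 := by
          rw [add_assoc, ← add_smul, add_sub_cancel]
        obtain ⟨-, hu⟩ := hf t ht
        obtain ⟨hu1, hu2⟩ := hu (u - s)
        constructor
        · intro hm
          obtain ⟨l1, l2⟩ := hu1 (by rw [h0]; exact M.Kt_subset ht hm)
          exact ⟨by linarith, by linarith⟩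
        · rintro ⟨l1, l2⟩
          show x + u • e3 ∈ Kt v α t
          rw [← h0]
          exact hu2 (by linarith) (by linarith)
      rw [hset t ht, hset T hT, hset (-T) hT', Real.volume_Icc, Real.volume_Icc, Real.volume_Icc,
        ← ENNReal.ofReal_mul hp, ← ENNReal.ofReal_mul hm, ← ENNReal.ofReal_mul h2T,
        ← ENNReal.ofReal_add (mul_nonneg hp (by linarith [(hf T hT).1]))
          (mul_nonneg hm (by linarith [(hf (-T) hT').1]))]
      congr 1
      ring
    · have hset : ∀ t, {u : ℝ | x + u • e3 ∈ Kt v α t} = ∅ := fun t =>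
        eq_empty_iff_forall_notMem.2 fun u hu => by
          obtain ⟨s, hs⟩ := over_of_mem_Kt hu
          exact ho ⟨u + s, by rwa [add_smul, ← add_assoc]⟩
      simp [hset]
  have h : ENNReal.ofReal (2 * T) * volume (Kt v α t) =
      ENNReal.ofReal (T + t) * volume (Kt v α T) + ENNReal.ofReal (T - t) * volume (Kt v α (-T)) := by
    rw [(hvol t).1, (hvol T).1, (hvol (-T)).1, ← lintegral_const_mul _ (hvol T).2,
      ← lintegral_const_mul _ (hvol (-T)).2, ← lintegral_const_mul _ (hvol t).2,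
      ← lintegral_add_left ((hvol T).2.const_mul _)]
    exact lintegral_congr key
  have h' := congrArg ENNReal.toReal h
  rw [ENNReal.toReal_add (ENNReal.mul_ne_top ENNReal.ofReal_ne_top (hc T).measure_lt_top.ne)
      (ENNReal.mul_ne_top ENNReal.ofReal_ne_top (hc (-T)).measure_lt_top.ne),
    ENNReal.toReal_mul, ENNReal.toReal_mul, ENNReal.toReal_mul, ENNReal.toReal_ofReal h2T,
    ENNReal.toReal_ofReal hp, ENNReal.toReal_ofReal hm] at h'
  exact h'

/-- The volume is linear along the motion. -/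
theorem Motion.volume_sum {T : ℝ} (M : Motion v a α r T) :
    2 * volume.real (convexHull ℝ (range v)) =
      volume.real (Kt v α T) + volume.real (Kt v α (-T)) := by
  have h := M.volume_affine (t := 0) (by rw [abs_zero]; exact M.pos.le)
  rw [add_zero, sub_zero, Kt_zero, mul_comm 2 T, mul_assoc, ← mul_add] at h
  exact mul_left_cancel₀ M.pos.ne' h

end Vale.Agent.P248.Three
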