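import Vale.Agent.P248.Three.Pairs
import Vale.Agent.P248.Main
import Mathlib.Analysis.Convex.KreinMilman

/-!
# P248: reduction to polytopes given by vertices and facets
-/

open MeasureTheory Set
open scoped Pointwise

namespace Vale.Agent.P248.Three

/-- Equal tight sets force equal extreme points, so a bounded intersection of half-spaces has
finitely many. -/
lemma finite_extremePoints {k : ℕ} (V : Fin k → R3) :
    (extremePoints ℝ {x : R3 | ∀ j, dot (V j) x ≤ 1}).Finite := by
  classical
  refine Set.Finite.of_finite_image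
    (f := fun x => Finset.univ.filter fun j => dot (V j) x = 1) (Set.toFinite _) ?_
  intro x hx y hy hxy
  by_contra hne
  have hJ : ∀ j, dot (V j) x = 1 → dot (V j) (y - x) = 0 := fun j hj => by
    have : j ∈ Finset.univ.filter fun j => dot (V j) x = 1 := by simp [hj]
    rw [show (Finset.univ.filter fun j => dot (V j) x = 1) =
      Finset.univ.filter fun j => dot (V j) y = 1 from hxy] at this
    rw [dot_sub_right, hj, (Finset.mem_filter.1 this).2, sub_self]
  set d := y - x with hd
  have hd0 : d ≠ 0 := sub_ne_zero.2 (Ne.symm hne)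
  set S := Finset.univ.filter fun j => dot (V j) x < 1
  obtain ⟨t, ht, hsmall⟩ : ∃ t : ℝ, 0 < t ∧ ∀ j ∈ S, t * |dot (V j) d| ≤ 1 - dot (V j) x := by
    rcases S.eq_empty_or_nonempty with hS | hS
    · exact ⟨1, one_pos, by simp [hS]⟩
    obtain ⟨l, hl, hmin⟩ := S.exists_min_image
      (fun j => (1 - dot (V j) x) / (|dot (V j) d| + 1)) hS
    refine ⟨(1 - dot (V l) x) / (|dot (V l) d| + 1),
      div_pos (sub_pos.2 (Finset.mem_filter.1 hl).2) (by positivity), fun j hj => ?_⟩
    have h1 := hmin j hj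
    rw [le_div_iff₀ (by positivity)] at h1
    exact le_trans (mul_le_mul_of_nonneg_left (le_add_of_nonneg_right zero_le_one)
      (div_nonneg (sub_nonneg.2 (Finset.mem_filter.1 hl).2.le) (by positivity))) h1
  have hmem : ∀ s : ℝ, |s| = 1 → x + (s * t) • d ∈ {x : R3 | ∀ j, dot (V j) x ≤ 1} := by
    intro s hs j
    rw [dot_add_right, dot_smul_right]
    rcases (hx.1 j).eq_or_lt with e | e
    · rw [e, hJ j e, mul_zero, add_zero]
    · have h1 : s * t * dot (V j) d ≤ t * |dot (V j) d| := by
        refine (le_abs_self _).trans (le_of_eq ?_)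
        rw [abs_mul, abs_mul, hs, abs_of_pos ht, one_mul]
      linarith [hsmall j (Finset.mem_filter.2 ⟨Finset.mem_univ j, e⟩)]
  have hseg : x ∈ openSegment ℝ (x + (1 * t) • d) (x + (-1 * t) • d) :=
    ⟨1 / 2, 1 / 2, by norm_num, by norm_num, by norm_num, by
      funext i
      simp only [Pi.add_apply, Pi.smul_apply, smul_eq_mul]
      ring⟩
  have e := hx.2 (hmem 1 abs_one) (hmem (-1) (by simp)) hseg
  rw [one_mul, add_eq_left] at e
  exact hd0 ((smul_eq_zero.1 e).resolve_left ht.ne')

/-- A body is squeezed between a body given by points and half-spaces and a multiple of itself. -/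
theorem exists_dual_approx {K : Set R3} (hK : Good K) {l : ℝ} (hl0 : 0 < l) (hl1 : l < 1) :
    ∃ (m k : ℕ) (v : Fin m → R3) (a : Fin k → R3), Dual v a ∧
      K ⊆ convexHull ℝ (range v) ∧ convexHull ℝ (range v) ⊆ l⁻¹ • K := by
  obtain ⟨N, V, sel, g, hV, hP, hgle, hgl⟩ := exists_poly hK (A := polar K)
    hK.exists_polar_attain (fun x _ hy => hK.dot_le_of_mem_polar hy x) hl0 hl1
  set Q : Set R3 := {x | ∀ j, dot (V j) x ≤ 1} with hQ
  have hKQ : K ⊆ Q := fun x hx j => by
    rw [dot_comm]
    exact hV j x hx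
  have hQK : Q ⊆ l⁻¹ • K := fun x hx => by
    rw [← hK.level (inv_pos.2 hl0)]
    show gauge K x ≤ l⁻¹
    have h1 : g x ≤ 1 := by
      rw [hP.attain, dot_comm]
      exact hx _
    rw [inv_eq_one_div, le_div_iff₀ hl0, mul_comm]
    linarith [hgl x]
  have hQc : IsCompact Q := (hK.cpt.smul l⁻¹).of_isClosed_subset (isClosed_halfspaces V _) hQK
  have hQv : Convex ℝ Q := by
    rw [hQ, Set.ofPred_forall]
    exact convex_iInter fun j => convex_halfSpace_le (dotL (V j)).isLinear 1
  have hQg : Good Q := ⟨hQc, hQv, interior_mono hKQ hK.int⟩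
  obtain ⟨m, v, -, hv⟩ := (finite_extremePoints V).fin_param
  have heq : convexHull ℝ (range v) = Q := by
    rw [hv, ← (((finite_extremePoints V).isCompact_convexHull ℝ).isClosed.closure_eq)]
    exact closure_convexHull_extremePoints hQc hQv
  exact ⟨m, N, v, V, ⟨heq.symm ▸ hQg, heq⟩, heq.symm ▸ hKQ, heq.symm ▸ hQK⟩

theorem of_pairs (hb : ∀ (m k : ℕ) (v : Fin m → R3) (a : Fin k → R3), Dual v a →
      64 / 9 ≤ prod0 (convexHull ℝ (range v))) {K : Set R3} (hK : Good K) :
    64 / 9 ≤ prod0 K := by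
  refine le_of_scaled 3 fun l hl0 hl1 => ?_
  obtain ⟨m, k, v, a, hD, hKQ, hQK⟩ := exists_dual_approx hK hl0 hl1
  set Q := convexHull ℝ (range v) with hQ
  have h := hb m k v a hD
  have hv1 : volume.real Q ≤ l⁻¹ ^ 3 * volume.real K := by
    refine (measureReal_mono hQK (hK.cpt.smul l⁻¹).measure_lt_top.ne).trans (le_of_eq ?_)
    rw [measureReal_def, Measure.addHaar_smul_of_nonneg _ (inv_nonneg.2 hl0.le), Module.finrank_pi,
      Fintype.card_fin, ENNReal.toReal_mul, ENNReal.toReal_ofReal (by positivity), measureReal_def]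
  have hv2 : volume.real (polar Q) ≤ volume.real (polar K) :=
    measureReal_mono (fun y hy x hx => hy x (hKQ hx)) hK.good_polar.cpt.measure_lt_top.ne
  have h3 : prod0 Q ≤ l⁻¹ ^ 3 * prod0 K := by
    rw [prod0, prod0, ← mul_assoc]
    exact mul_le_mul hv1 hv2 measureReal_nonneg (by positivity)
  calc l ^ 3 * (64 / 9) ≤ l ^ 3 * (l⁻¹ ^ 3 * prod0 K) :=
        mul_le_mul_of_nonneg_left (h.trans h3) (by positivity)
    _ = prod0 K := by rw [← mul_assoc, ← mul_pow, mul_inv_cancel₀ hl0.ne', one_pow, one_mul]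

end Vale.Agent.P248.Three
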