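import Vale.Agent.P248.Three.Defs
import Vale.Agent.P254.Sym.PL

/-!
# P248: the harmonic inequality for the two sides of the polar along a shadow midpoint

Weighted Prekopa-Leindler on the horizontal planes, then Ball's one-dimensional inequality.
-/

open MeasureTheory Set Filter Topology Real
open scoped ENNReal

namespace Vale.Agent.P248.Three

/-! ## Ball's inequality on the half line -/

/-- The inverse of the normalised primitive of a positive function on the half line. -/
lemma exists_transport {f : ℝ → ℝ} (hf : Continuous f) (hp : ∀ x, 0 < f x)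
    (hi : IntegrableOn f (Ioi 0)) :
    ∃ P : ℝ → ℝ, ∀ x ∈ Ioo (0 : ℝ) 1,
      0 < P x ∧ HasDerivAt P ((∫ t in Ioi 0, f t) / f (P x)) x := by
  set A := ∫ t in Ioi 0, f t with hA
  set F : ℝ → ℝ := fun p => (∫ t in (0 : ℝ)..p, f t) / A with hFdef
  have hApos : 0 < A := (setIntegral_pos_iff_support_of_nonneg_ae
    (Eventually.of_forall fun t => (hp t).le) hi).2 (by
      have : Function.support f = univ := eq_univ_of_forall fun t => (hp t).ne'
      rw [this, univ_inter, Real.volume_Ioi]; exact ENNReal.zero_lt_top)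
  have hder : ∀ p, HasDerivAt F (f p / A) p := fun p =>
    ((hf.integral_hasStrictDerivAt 0 p).hasDerivAt).div_const A
  have hmono : StrictMono F :=
    strictMono_of_deriv_pos fun p => by rw [(hder p).deriv]; exact div_pos (hp p) hApos
  have hF0 : F 0 = 0 := by simp [hFdef]
  have hlim : Tendsto F atTop (𝓝 1) := by
    have := (intervalIntegral_tendsto_integral_Ioi 0 hi tendsto_id).div_const A
    rwa [← hA, div_self hApos.ne'] at this
  have hle : ∀ p, F p < 1 := fun p =>
    lt_of_lt_of_le (hmono (lt_add_one p)) (hmono.monotone.ge_of_tendsto hlim (p + 1))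
  have hsurj : ∀ x ∈ Ioo (0 : ℝ) 1, ∃ p, 0 < p ∧ F p = x := by
    intro x hx
    obtain ⟨N, hN⟩ := ((hlim.eventually (lt_mem_nhds hx.2)).and (eventually_ge_atTop 0)).exists
    obtain ⟨p, hp', hpx⟩ := intermediate_value_Icc hN.2
      (fun q _ => (hder q).continuousAt.continuousWithinAt) ⟨by rw [hF0]; exact hx.1.le, hN.1.le⟩
    refine ⟨p, hp'.1.lt_of_ne fun h => ?_, hpx⟩
    rw [← h, hF0] at hpx
    exact hx.1.ne hpx
  choose! P hP0 hPF using hsurj
  refine ⟨P, fun x hx => ⟨hP0 x hx, ?_⟩⟩
  have hcont : ContinuousAt P x := by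
    have hsm : StrictMonoOn P (Ioo 0 1) := fun a ha b hb hab =>
      hmono.lt_iff_lt.1 (by rwa [hPF a ha, hPF b hb])
    refine hsm.continuousAt_of_image_mem_nhds (isOpen_Ioo.mem_nhds hx) ?_
    refine mem_of_superset (Ioi_mem_nhds (hP0 x hx)) fun p hp' => ?_
    have hm : F p ∈ Ioo (0 : ℝ) 1 := ⟨by rw [← hF0]; exact hmono hp', hle p⟩
    exact ⟨F p, hm, hmono.injective (hPF _ hm)⟩
  have := HasDerivAt.of_local_left_inverse hcont (hder (P x)) (div_pos (hp _) hApos).ne'
    (eventually_of_mem (isOpen_Ioo.mem_nhds hx) fun y hy => hPF y hy)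
  rwa [inv_div] at this

/-- The weighted arithmetic–geometric step of Ball's inequality. -/
lemma ball_step {A B f g h a b : ℝ} (hA : 0 < A) (hB : 0 < B) (hf : 0 < f) (hg : 0 < g)
    (ha : 0 < a) (hb : 0 < b) (hab : a + b = 1) (hh : f ^ a * g ^ b ≤ h) :
    2 / (A⁻¹ + B⁻¹) ≤ 2 * (a ^ 2 * (A / f) + b ^ 2 * (B / g)) * h := by
  have h1 : (a * A / f) ^ a * (b * B / g) ^ b ≤ a ^ 2 * (A / f) + b ^ 2 * (B / g) := by
    refine (geom_mean_le_arith_mean2_weighted ha.le hb.le (by positivity) (by positivity) hab).trans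
      (le_of_eq (by ring))
  have h2 : (1 / (a * A)) ^ a * (1 / (b * B)) ^ b ≤ A⁻¹ + B⁻¹ := by
    refine (geom_mean_le_arith_mean2_weighted ha.le hb.le (by positivity) (by positivity) hab).trans
      (le_of_eq ?_)
    field_simp
  have e1 : (a * A / f) ^ a * (b * B / g) ^ b * (f ^ a * g ^ b) = (a * A) ^ a * (b * B) ^ b := by
    rw [div_rpow (by positivity) hf.le, div_rpow (by positivity) hg.le]
    have := (rpow_pos_of_pos hf a).ne'
    have := (rpow_pos_of_pos hg b).ne'
    field_simp
  have e2 : (1 / (a * A)) ^ a * (1 / (b * B)) ^ b = 1 / ((a * A) ^ a * (b * B) ^ b) := by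
    rw [div_rpow zero_le_one (by positivity), div_rpow zero_le_one (by positivity), one_rpow,
      one_rpow, div_mul_div_comm, one_mul]
  have hpos : 0 < (a * A) ^ a * (b * B) ^ b := by positivity
  rw [e2, div_le_iff₀ hpos] at h2
  have hfg : 0 < f ^ a * g ^ b := by positivity
  calc 2 / (A⁻¹ + B⁻¹) ≤ 2 * ((a * A) ^ a * (b * B) ^ b) := by
        rw [div_le_iff₀ (by positivity)]; nlinarith
    _ ≤ 2 * ((a ^ 2 * (A / f) + b ^ 2 * (B / g)) * h) := by
        rw [← e1]
        refine mul_le_mul_of_nonneg_left (mul_le_mul h1 hh hfg.le ?_) two_pos.le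
        positivity
    _ = _ := by ring

/-- **Ball's inequality.** -/
theorem ball_harmonic {f g h : ℝ → ℝ} (hf : Continuous f) (hfp : ∀ x, 0 < f x)
    (hfi : IntegrableOn f (Ioi 0)) (hg : Continuous g) (hgp : ∀ x, 0 < g x)
    (hgi : IntegrableOn g (Ioi 0)) (hh0 : ∀ x, 0 ≤ h x) (hhi : IntegrableOn h (Ioi 0))
    (hle : ∀ p q, 0 < p → 0 < q →
      f p ^ (q / (p + q)) * g q ^ (p / (p + q)) ≤ h (2 * p * q / (p + q)))
    (hA : 0 < ∫ t in Ioi 0, f t) (hB : 0 < ∫ t in Ioi 0, g t) :
    2 / ((∫ t in Ioi 0, f t)⁻¹ + (∫ t in Ioi 0, g t)⁻¹) ≤ ∫ t in Ioi 0, h t := by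
  set A := ∫ t in Ioi 0, f t with hAdef
  set B := ∫ t in Ioi 0, g t with hBdef
  obtain ⟨P, hP⟩ := exists_transport hf hfp hfi
  obtain ⟨Q, hQ⟩ := exists_transport hg hgp hgi
  set T : ℝ → ℝ := fun x => 2 * P x * Q x / (P x + Q x) with hT
  set T' : ℝ → ℝ := fun x => 2 * ((Q x / (P x + Q x)) ^ 2 * (A / f (P x)) +
    (P x / (P x + Q x)) ^ 2 * (B / g (Q x))) with hT'
  have hder : ∀ x ∈ Ioo (0 : ℝ) 1, HasDerivAt T (T' x) x := fun x hx => by
    obtain ⟨hp, hpd⟩ := hP x hx
    obtain ⟨hq, hqd⟩ := hQ x hx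
    have hne : P x + Q x ≠ 0 := by positivity
    refine (((hpd.const_mul 2).mul hqd).div (hpd.add hqd) hne).congr_deriv ?_
    simp only [hT', Pi.add_apply, Pi.mul_apply, ← hAdef, ← hBdef]
    field_simp
    ring
  have hpos : ∀ x ∈ Ioo (0 : ℝ) 1, 0 < T' x ∧ 0 < T x ∧ 2 / (A⁻¹ + B⁻¹) ≤ T' x * h (T x) := by
    intro x hx
    obtain ⟨hp, -⟩ := hP x hx
    obtain ⟨hq, -⟩ := hQ x hx
    have hfx := hfp (P x)
    have hgx := hgp (Q x)
    refine ⟨by positivity, by positivity, ?_⟩
    exact ball_step hA hB hfx hgx (by positivity) (by positivity)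
      (by field_simp; ring) (hle _ _ hp hq)
  have hinj : InjOn T (Ioo 0 1) := by
    refine (strictMonoOn_of_deriv_pos (convex_Ioo 0 1)
      (fun x hx => (hder x hx).continuousAt.continuousWithinAt) fun x hx => ?_).injOn
    rw [interior_Ioo] at hx
    rw [(hder x hx).deriv]
    exact (hpos x hx).1
  have himg : T '' Ioo 0 1 ⊆ Ioi 0 := by
    rintro _ ⟨x, hx, rfl⟩
    exact (hpos x hx).2.1
  have key := lintegral_image_eq_lintegral_abs_deriv_mul measurableSet_Ioo
    (fun x hx => (hder x hx).hasDerivWithinAt) hinj fun τ => ENNReal.ofReal (h τ)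
  have h1 : ENNReal.ofReal (2 / (A⁻¹ + B⁻¹)) ≤ ∫⁻ τ in Ioi 0, ENNReal.ofReal (h τ) := by
    refine le_trans ?_ (lintegral_mono_set himg)
    rw [key]
    calc ENNReal.ofReal (2 / (A⁻¹ + B⁻¹))
        = ∫⁻ _x in Ioo (0 : ℝ) 1, ENNReal.ofReal (2 / (A⁻¹ + B⁻¹)) := by simp
      _ ≤ _ := setLIntegral_mono' measurableSet_Ioo fun x hx => by
          rw [← ENNReal.ofReal_mul (abs_nonneg _), abs_of_pos (hpos x hx).1]
          exact ENNReal.ofReal_le_ofReal (hpos x hx).2.2
  rw [← ofReal_integral_eq_lintegral_ofReal hhi (Eventually.of_forall fun t => hh0 t)] at h1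
  exact (ENNReal.ofReal_le_ofReal_iff (setIntegral_nonneg measurableSet_Ioi fun t _ => hh0 t)).1 h1

/-! ## The horizontal sections of the exponential -/

/-- Insert the height. -/
def lift (t : ℝ) (u : Fin 2 → ℝ) : R3 := Fin.insertNth 2 t u

lemma lift_two (t : ℝ) (u : Fin 2 → ℝ) : lift t u 2 = t := by simp [lift]

lemma continuous_lift : Continuous fun p : ℝ × (Fin 2 → ℝ) => lift p.1 p.2 := by
  unfold lift; fun_prop

lemma lift_combo (r t t' : ℝ) (u u' : Fin 2 → ℝ) :
    r • lift t u + lift t' u' = lift (r * t + t') (r • u + u') := by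
  unfold lift
  funext i
  refine Fin.succAboveCases (2 : Fin 3) ?_ (fun j => ?_) i <;> simp

lemma norm_le_lift (t : ℝ) (u : Fin 2 → ℝ) : ‖u‖ ≤ ‖lift t u‖ := by
  rw [pi_norm_le_iff_of_nonneg (norm_nonneg _)]
  intro i
  have := norm_le_pi_norm (lift t u) ((2 : Fin 3).succAbove i)
  simpa [lift] using this

/-- The horizontal integral at height `t` of the exponential of the polar gauge. -/
noncomputable def level (K : Set R3) (t : ℝ) : ℝ :=
  ∫ u : Fin 2 → ℝ, exp (-gauge (polar K) (lift t u))

variable {K : Set R3}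

lemma integrable_exp_norm {c : ℝ} (hc : 0 < c) :
    Integrable fun u : Fin 2 → ℝ => exp (-(c * ‖u‖)) := by
  have hb : Good (Metric.closedBall (0 : Fin 2 → ℝ) c⁻¹) :=
    ⟨isCompact_closedBall _ _, convex_closedBall _ _, mem_interior_iff_mem_nhds.2
      (Metric.closedBall_mem_nhds _ (inv_pos.2 hc))⟩
  have := hb.integrableOn_cone
  simpa [gauge_closedBall (inv_pos.2 hc).le, div_inv_eq_mul, mul_comm] using this

lemma exists_dom (hK : Good K) : ∃ c, 0 < c ∧
    ∀ t u, exp (-gauge (polar K) (lift t u)) ≤ exp (-(c * ‖u‖)) := by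
  obtain ⟨c, hc, hlow⟩ := hK.good_polar.exists_lower
  exact ⟨c, hc, fun t u => exp_le_exp.2 (neg_le_neg
    ((mul_le_mul_of_nonneg_left (norm_le_lift t u) hc.le).trans (hlow _)))⟩

lemma continuous_weight (hK : Good K) :
    Continuous fun p : ℝ × (Fin 2 → ℝ) => exp (-gauge (polar K) (lift p.1 p.2)) :=
  (hK.good_polar.cont.comp continuous_lift).neg.rexp

lemma integrable_weight (hK : Good K) (t : ℝ) :
    Integrable fun u : Fin 2 → ℝ => exp (-gauge (polar K) (lift t u)) := by
  obtain ⟨c, hc, hdom⟩ := exists_dom hK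
  refine Integrable.mono' (integrable_exp_norm hc)
    ((continuous_weight hK).comp (by fun_prop : Continuous fun u => (t, u))).aestronglyMeasurable
    (Eventually.of_forall fun u => ?_)
  rw [norm_eq_abs, abs_of_pos (exp_pos _)]
  exact hdom t u

lemma level_pos (hK : Good K) (t : ℝ) : 0 < level K t := by
  refine (integral_pos_iff_support_of_nonneg (fun u => (exp_pos _).le) (integrable_weight hK t)).2 ?_
  rw [eq_univ_of_forall fun u => Function.mem_support.2 (exp_pos _).ne']
  exact isOpen_univ.measure_pos volume univ_nonempty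

lemma continuous_level (hK : Good K) : Continuous (level K) := by
  obtain ⟨c, hc, hdom⟩ := exists_dom hK
  refine continuous_of_dominated (bound := fun u => exp (-(c * ‖u‖)))
    (fun t => (integrable_weight hK t).aestronglyMeasurable) (fun t => ?_) (integrable_exp_norm hc)
    (Eventually.of_forall fun u => ?_)
  · refine Eventually.of_forall fun u => ?_
    rw [norm_eq_abs, abs_of_pos (exp_pos _)]
    exact hdom t u
  · have hl : Continuous fun t : ℝ => lift t u :=
      continuous_lift.comp (Continuous.prodMk continuous_id continuous_const)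
    exact (hK.good_polar.cont.comp hl).neg.rexp

lemma lintegral_level (hK : Good K) {s : ℝ} (hs : s = 1 ∨ s = -1) :
    ∫⁻ t in Ioi 0, ENNReal.ofReal (level K (s * t)) = ENNReal.ofReal (6 * side s K) := by
  set C : Set R3 := {y | 0 < s * y 2} with hC
  have hCm : MeasurableSet C :=
    measurableSet_lt measurable_const (measurable_const.mul (measurable_pi_apply 2))
  have hdil : IsDilStable C := fun r hr x => by
    simp only [hC, mem_ofPred_eq, Pi.smul_apply, smul_eq_mul]
    rw [mul_left_comm]
    exact mul_pos_iff_of_pos_left hr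
  have h6 : ENNReal.ofReal (6 * side s K) =
      ∫⁻ y in C, ENNReal.ofReal (exp (-gauge (polar K) y)) := by
    rw [hK.good_polar.lintegral_cone hCm hdil, side]
    norm_num [Nat.factorial]
    rfl
  set F : R3 → ℝ≥0∞ := C.indicator fun y => ENNReal.ofReal (exp (-gauge (polar K) y)) with hF
  have hFm : Measurable F :=
    (hK.good_polar.cont.measurable.neg.exp.ennreal_ofReal).indicator hCm
  have hmp := (volume_preserving_piFinSuccAbove (fun _ : Fin 3 => ℝ) 2).symm
  have hsplit : ∫⁻ y, F y = ∫⁻ t : ℝ, ∫⁻ u : Fin 2 → ℝ, F (lift t u) := by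
    rw [← hmp.lintegral_comp hFm, Measure.volume_eq_prod, lintegral_prod]
    · simp [MeasurableEquiv.piFinSuccAbove, lift]
      rfl
    · exact (hFm.comp (MeasurableEquiv.measurable _)).aemeasurable
  have hin : ∀ t : ℝ, ∫⁻ u : Fin 2 → ℝ, F (lift t u) =
      {t : ℝ | 0 < s * t}.indicator (fun t => ENNReal.ofReal (level K t)) t := by
    intro t
    by_cases ht : 0 < s * t
    · rw [indicator_of_mem (show t ∈ {t : ℝ | 0 < s * t} from ht), level,
        ofReal_integral_eq_lintegral_ofReal (integrable_weight hK t)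
          (Eventually.of_forall fun u => (exp_pos _).le)]
      refine lintegral_congr fun u => ?_
      rw [hF, indicator_of_mem]
      simpa [hC, lift_two] using ht
    · rw [indicator_of_notMem (show t ∉ {t : ℝ | 0 < s * t} from ht)]
      simp [hF, hC, lift_two, ht]
  rw [h6, ← lintegral_indicator hCm, ← hF, hsplit, lintegral_congr hin,
    ← lintegral_indicator measurableSet_Ioi]
  rcases hs with rfl | rfl
  · simp only [one_mul]; rfl
  · conv_rhs => rw [← (Measure.measurePreserving_neg (volume : Measure ℝ)).lintegral_comp_emb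
      (MeasurableEquiv.neg ℝ).measurableEmbedding]
    refine lintegral_congr fun t => ?_
    by_cases ht : t < 0 <;> simp [indicator, ht, not_lt.1 ∘ id]

/-- The Prekopa-Leindler step. -/
lemma level_ball {Kr Ks : Set R3} (hr : Good Kr) (h : Good K) (hs : Good Ks) {c : ℝ}
    (hsh : Shadow Kr ((fun x => x + c • e3) '' K) Ks) {s p q : ℝ} (hc : 0 ≤ s * c)
    (hp : 0 < p) (hq : 0 < q) :
    level Kr (s * p) ^ (q / (p + q)) * level Ks (s * q) ^ (p / (p + q)) ≤
      level K (s * (2 * p * q / (p + q))) := by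
  set a := q / (p + q) with ha
  set b := p / (p + q) with hb
  set τ := 2 * p * q / (p + q) with hτ
  have ha0 : 0 < a := by positivity
  have hb0 : 0 < b := by positivity
  have hab : a + b = 1 := by rw [ha, hb]; field_simp; ring
  have hτ0 : 0 < τ := by positivity
  have key : ∀ U V : Fin 2 → ℝ, gauge (polar K) (lift (s * τ) (a • U + b • V)) ≤
      a * gauge (polar Kr) (lift (s * p) U) + b * gauge (polar Ks) (lift (s * q) V) := by
    intro U V
    set W := lift (s * τ) (a • U + b • V) with hW
    have hWe : W = a • lift (s * p) U + b • lift (s * q) V := by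
      have hz : lift 0 0 = (0 : R3) := by
        unfold lift; funext i
        refine Fin.succAboveCases (2 : Fin 3) ?_ (fun j => ?_) i <;> simp
      have h1 := lift_combo b (s * q) 0 V 0
      rw [hz, add_zero, add_zero, add_zero] at h1
      rw [h1, lift_combo, hW]
      congr 1
      rw [hτ, ha, hb]; field_simp; ring
    refine Good.gauge_polar_le (add_nonneg (mul_nonneg ha0.le (gauge_nonneg _))
      (mul_nonneg hb0.le (gauge_nonneg _))) fun x hx => ?_
    obtain ⟨d, hdr, hds⟩ := hsh _ ⟨x, hx, rfl⟩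
    have kr := hr.dot_le_of_mem hdr (lift (s * p) U)
    have ks := hs.dot_le_of_mem hds (lift (s * q) V)
    have e : ∀ (r : ℝ) (y : R3), dot (r • e3) y = r * y 2 := fun r y => by
      simp [dot, e3, Pi.single_apply]
    simp only [sub_eq_add_neg, ← neg_smul, dot_add, e, lift_two] at kr ks
    rw [hWe, dot_comm, dot_add, dot_smul, dot_smul, dot_comm _ x, dot_comm _ x]
    have h2 := add_le_add (mul_le_mul_of_nonneg_left kr ha0.le)
      (mul_le_mul_of_nonneg_left ks hb0.le)
    have e1 : a * p = τ / 2 ∧ b * q = τ / 2 := by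
      constructor <;> (simp only [hτ, ha, hb]; field_simp)
    have : a * (c * (s * p) + d * (s * p)) + b * (c * (s * q) + -d * (s * q)) =
        (s * c) * τ := by linear_combination (s * (c + d)) * e1.1 + (s * (c - d)) * e1.2
    nlinarith
  have hm : ∀ {A : Set R3}, Good A → ∀ t,
      Measurable fun u : Fin 2 → ℝ => ENNReal.ofReal (exp (-gauge (polar A) (lift t u))) :=
    fun hA t => ((continuous_weight hA).comp
      (by fun_prop : Continuous fun u => (t, u))).measurable.ennreal_ofReal
  have hpl := Vale.Agent.P254.Sym.pl_vol ha0 hb0 hab 2 (hm hr (s * p)) (hm hs (s * q))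
    (hm h (s * τ)) fun U V => by
      rw [ENNReal.ofReal_rpow_of_pos (exp_pos _), ENNReal.ofReal_rpow_of_pos (exp_pos _),
        ← ENNReal.ofReal_mul (by positivity), ← exp_mul, ← exp_mul, ← exp_add]
      exact ENNReal.ofReal_le_ofReal (exp_le_exp.2 (by linarith [key U V]))
  have conv : ∀ {A : Set R3}, Good A → ∀ t,
      ∫⁻ u : Fin 2 → ℝ, ENNReal.ofReal (exp (-gauge (polar A) (lift t u))) =
        ENNReal.ofReal (level A t) := fun hA t =>
    (ofReal_integral_eq_lintegral_ofReal (integrable_weight hA t)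
      (Eventually.of_forall fun u => (exp_pos _).le)).symm
  rw [conv hr, conv hs, conv h, ENNReal.ofReal_rpow_of_pos (level_pos hr _),
    ENNReal.ofReal_rpow_of_pos (level_pos hs _),
    ← ENNReal.ofReal_mul (rpow_nonneg (level_pos hr _).le _)] at hpl
  exact (ENNReal.ofReal_le_ofReal_iff (level_pos h _).le).1 hpl

lemma side_data (hK : Good K) {s : ℝ} (hs : s = 1 ∨ s = -1) :
    IntegrableOn (fun t => level K (s * t)) (Ioi 0) ∧
      ∫ t in Ioi 0, level K (s * t) = 6 * side s K ∧ 0 < side s K := by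
  have hc : Continuous fun t => level K (s * t) :=
    (continuous_level hK).comp (continuous_const.mul continuous_id)
  have hi : IntegrableOn (fun t => level K (s * t)) (Ioi 0) := by
    refine ⟨hc.aestronglyMeasurable, ?_⟩
    rw [hasFiniteIntegral_iff_ofReal (Eventually.of_forall fun t => (level_pos hK _).le),
      lintegral_level hK hs]
    exact ENNReal.ofReal_lt_top
  have heq : ∫ t in Ioi 0, level K (s * t) = 6 * side s K := by
    rw [integral_eq_lintegral_of_nonneg_ae (Eventually.of_forall fun t => (level_pos hK _).le)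
      hc.aestronglyMeasurable, lintegral_level hK hs,
      ENNReal.toReal_ofReal (by unfold side; positivity)]
  refine ⟨hi, heq, ?_⟩
  have : 0 < ∫ t in Ioi 0, level K (s * t) := by
    refine (setIntegral_pos_iff_support_of_nonneg_ae
      (Eventually.of_forall fun t => (level_pos hK _).le) hi).2 ?_
    rw [eq_univ_of_forall fun t => Function.mem_support.2 (level_pos hK (s * t)).ne', univ_inter,
      Real.volume_Ioi]
    exact ENNReal.zero_lt_top
  linarith

/-- **The harmonic inequality for one side of the polar along a shadow midpoint.** -/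
theorem half_harmonic {Kr K Ks : Set R3} (hr : Good Kr) (h : Good K) (hs : Good Ks)
    {c : ℝ} (hsh : Shadow Kr ((fun x => x + c • e3) '' K) Ks) {s : ℝ} (hs1 : s = 1 ∨ s = -1)
    (hc : 0 ≤ s * c) :
    (side s K)⁻¹ ≤ ((side s Kr)⁻¹ + (side s Ks)⁻¹) / 2 := by
  obtain ⟨ir, er, pr⟩ := side_data hr hs1
  obtain ⟨ik, ek, pk⟩ := side_data h hs1
  obtain ⟨is', es, ps⟩ := side_data hs hs1
  have hcont : ∀ {A : Set R3}, Good A → Continuous fun t => level A (s * t) := fun hA =>
    (continuous_level hA).comp (continuous_const.mul continuous_id)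
  have key := ball_harmonic (hcont hr) (fun t => level_pos hr _) ir (hcont hs)
    (fun t => level_pos hs _) is' (fun t => (level_pos h _).le) ik
    (fun p q hp hq => level_ball hr h hs hsh hc hp hq) (by rw [er]; positivity)
    (by rw [es]; positivity)
  rw [er, es, ek, div_le_iff₀ (by positivity)] at key
  rw [mul_inv, mul_inv] at key
  rw [inv_le_iff_one_le_mul₀ pk]
  linarith

end Vale.Agent.P248.Three
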