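import Vale.Agent.P248.General
import Vale.Agent.P248.Three.Fibre
import Vale.Agent.P248.Three.Half

/-!
# P248: centres on a vertical line that split the polar in a given ratio
-/

open MeasureTheory Set Filter Topology Real
open scoped Pointwise Nat

namespace Vale.Agent.P248.Three

/-- A set moved down by `c`. -/
def shiftDown (A : Set R3) (c : ℝ) : Set R3 := (fun x => x - c • e3) '' A

lemma e3_two : e3 2 = 1 := by simp [e3]

lemma norm_e3 : ‖e3‖ = 1 := by simp [e3, Pi.norm_single]

/-- The open upper or lower half-space. -/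
def half (s : ℝ) : Set R3 := {y | 0 < s * y 2}

lemma measurableSet_half (s : ℝ) : MeasurableSet (half s) :=
  measurableSet_lt measurable_const (measurable_const.mul (measurable_pi_apply 2))

lemma dilStable_half (s : ℝ) : IsDilStable (half s) := fun r hr x => by
  simp only [half, mem_ofPred_eq, Pi.smul_apply, smul_eq_mul, mul_left_comm s]
  exact mul_pos_iff_of_pos_left hr

lemma convex_half (s : ℝ) : Convex ℝ (half s) := by
  intro x hx y hy p q hp hq hpq
  simp only [half, mem_ofPred_eq, Pi.add_apply, Pi.smul_apply, smul_eq_mul] at hx hy ⊢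
  rcases hp.eq_or_lt with e | hp'
  · rw [← e, zero_add] at hpq
    rw [← e, hpq]; simpa using hy
  · nlinarith [mul_pos hp' hx, mul_nonneg hq hy.le]

lemma side_eq (s : ℝ) (K : Set R3) : side s K = volume.real (polar K ∩ half s) := rfl

lemma total_eq {K : Set R3} (hK : Good K) :
    volume.real (polar K) = side 1 K + side (-1) K := by
  have hfin : ∀ s, volume (polar K ∩ half s) ≠ ⊤ := fun s =>
    measure_ne_top_of_subset inter_subset_left hK.good_polar.cpt.measure_lt_top.ne
  have hd : Disjoint (polar K ∩ half 1) (polar K ∩ half (-1)) :=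
    disjoint_left.2 fun y h1 h2 => by
      have e1 : (0 : ℝ) < 1 * y 2 := h1.2
      have e2 : (0 : ℝ) < (-1) * y 2 := h2.2
      linarith
  rw [side_eq, side_eq, ← measureReal_union hd
    (hK.good_polar.cpt.measurableSet.inter (measurableSet_half _)) (hfin 1) (hfin (-1))]
  refine measureReal_congr (ae_eq_set.2 ⟨?_, ?_⟩)
  · refine measure_mono_null (t := {y : R3 | y 2 = 0}) (fun y hy => ?_) ?_
    · by_contra h
      rcases lt_or_gt_of_ne h with h' | h'
      · refine hy.2 (Or.inr ⟨hy.1, ?_⟩)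
        show (0 : ℝ) < (-1) * y 2
        linarith
      · refine hy.2 (Or.inl ⟨hy.1, ?_⟩)
        show (0 : ℝ) < 1 * y 2
        linarith
    · simpa [volume_pi] using Measure.pi_hyperplane (fun _ : Fin 3 => (volume : Measure ℝ)) 2 0
  · rw [Set.sdiff_eq_empty.2 (union_subset inter_subset_left inter_subset_left)]
    exact measure_empty

variable {A : Set R3}

lemma good_shiftDown (hc : IsCompact A) (hv : Convex ℝ A) {c : ℝ} (hi : c • e3 ∈ interior A) :
    Good (shiftDown A c) where
  cpt := hc.image (by fun_prop)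
  conv := by
    have := hv.translate (-(c • e3))
    simpa [shiftDown, sub_eq_neg_add] using this
  int := by
    have : Homeomorph.subRight (c • e3) (c • e3) ∈ Homeomorph.subRight (c • e3) '' interior A :=
      ⟨_, hi, rfl⟩
    rw [Homeomorph.image_interior] at this
    simpa [shiftDown] using this

lemma mem_polar_shiftDown {c : ℝ} {y : R3} :
    y ∈ polar (shiftDown A c) ↔ ∀ x ∈ A, dot x y - c * y 2 ≤ 1 := by
  have e : ∀ x : R3, dot (x - c • e3) y = dot x y - c * y 2 := fun x => by
    rw [dot_comm, dot_sub_right, dot_smul_right, dot_e3, dot_comm]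
  simp only [mem_polar, shiftDown, forall_mem_image, e]

lemma gauge_shiftDown (hc : IsCompact A) (hv : Convex ℝ A) {c c' : ℝ} (hi : c • e3 ∈ interior A)
    (hi' : c' • e3 ∈ interior A) (y : R3) :
    gauge (polar (shiftDown A c')) y = gauge (polar (shiftDown A c)) y - (c' - c) * y 2 := by
  have e : ∀ (x : R3) (c : ℝ), dot (x - c • e3) y = dot x y - c * y 2 := fun x c => by
    rw [dot_comm, dot_sub_right, dot_smul_right, dot_e3, dot_comm]
  have h := good_shiftDown hc hv hi
  have h' := good_shiftDown hc hv hi'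
  obtain ⟨_, ⟨x, hx, rfl⟩, hxe⟩ := h.exists_attain y
  obtain ⟨_, ⟨x', hx', rfl⟩, hxe'⟩ := h'.exists_attain y
  have h1 := h.dot_le_of_mem (x := x' - c • e3) ⟨x', hx', rfl⟩ y
  have h2 := h'.dot_le_of_mem (x := x - c' • e3) ⟨x, hx, rfl⟩ y
  rw [e] at h1 h2 hxe hxe'
  linarith

lemma side_mono (hc : IsCompact A) (hv : Convex ℝ A) {c c' s : ℝ} (hi' : c' • e3 ∈ interior A)
    (hle : s * c ≤ s * c') : side s (shiftDown A c) ≤ side s (shiftDown A c') := by
  refine measureReal_mono (fun y hy => ⟨mem_polar_shiftDown.2 fun x hx => ?_, hy.2⟩)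
    (measure_ne_top_of_subset inter_subset_left
      (good_shiftDown hc hv hi').good_polar.cpt.measure_lt_top.ne)
  have h1 := mem_polar_shiftDown.1 hy.1 x hx
  have hy2 : 0 < s * y 2 := hy.2
  have h2 : c * y 2 ≤ c' * y 2 := by
    rcases lt_trichotomy (y 2) 0 with h | h | h
    · have hs : s < 0 := by
        by_contra hs
        linarith [mul_nonpos_of_nonneg_of_nonpos (not_lt.1 hs) h.le]
      have : c' ≤ c := by nlinarith
      nlinarith
    · rw [h]; simp
    · have hs : 0 < s := by
        by_contra hs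
        linarith [mul_nonpos_of_nonpos_of_nonneg (not_lt.1 hs) h.le]
      have : c ≤ c' := le_of_mul_le_mul_left hle hs
      nlinarith
  linarith

lemma side_integral (hc : IsCompact A) (hv : Convex ℝ A) {c : ℝ} (hi : c • e3 ∈ interior A)
    (s : ℝ) :
    ∫ y in half s, exp (-gauge (polar (shiftDown A c)) y) = 6 * side s (shiftDown A c) := by
  rw [(good_shiftDown hc hv hi).good_polar.integral_cone (measurableSet_half s) (dilStable_half s),
    side_eq]
  norm_num [Nat.factorial]

lemma side_convexOn (hc : IsCompact A) (hv : Convex ℝ A) (s : ℝ) :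
    ConvexOn ℝ {c : ℝ | c • e3 ∈ interior A} fun c => side s (shiftDown A c) := by
  have hset : Convex ℝ {c : ℝ | c • e3 ∈ interior A} := fun x hx y hy p q hp hq hpq => by
    have := hv.interior hx hy hp hq hpq
    show (p • x + q • y) • e3 ∈ interior A
    rwa [add_smul, smul_assoc, smul_assoc]
  refine ⟨hset, fun x hx y hy p q hp hq hpq => ?_⟩
  have hxy := hset hx hy hp hq hpq
  have hpt : ∀ w : R3, exp (-gauge (polar (shiftDown A (p • x + q • y))) w) ≤
      p * exp (-gauge (polar (shiftDown A x)) w) + q * exp (-gauge (polar (shiftDown A y)) w) := by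
    intro w
    have hz : -gauge (polar (shiftDown A (p • x + q • y))) w =
        p * -gauge (polar (shiftDown A x)) w + q * -gauge (polar (shiftDown A y)) w := by
      rw [gauge_shiftDown hc hv hx hxy, gauge_shiftDown hc hv hx hy, smul_eq_mul, smul_eq_mul]
      linear_combination (gauge (polar (shiftDown A x)) w + x * w 2) * hpq
    rw [hz]
    exact convexOn_exp.2 (mem_univ _) (mem_univ _) hp hq hpq
  have hint : ∀ c : ℝ, c • e3 ∈ interior A →
      IntegrableOn (fun w => exp (-gauge (polar (shiftDown A c)) w)) (half s) := fun c hi =>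
    (good_shiftDown hc hv hi).good_polar.integrableOn_cone.integrableOn
  have h := integral_mono (hint _ hxy) (((hint x hx).const_mul p).add ((hint y hy).const_mul q))
    fun w => hpt w
  simp only [Pi.add_apply] at h
  rw [integral_add ((hint x hx).const_mul p) ((hint y hy).const_mul q), integral_const_mul,
    integral_const_mul, side_integral hc hv hxy, side_integral hc hv hx,
    side_integral hc hv hy] at h
  simp only [smul_eq_mul] at h ⊢
  linarith

/-- Towards an end of the line the volume of that side of the polar is unbounded. -/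
lemma side_large (hc : IsCompact A) (hv : Convex ℝ A) {c₀ : ℝ} (hi : c₀ • e3 ∈ interior A)
    {s : ℝ} (hs : s = 1 ∨ s = -1) (M : ℝ) :
    ∃ c, s * c₀ ≤ s * c ∧ c • e3 ∈ interior A ∧ M ≤ side s (shiftDown A c) := by
  have hss : s * s = 1 := by rcases hs with rfl | rfl <;> norm_num
  have hS : IsCompact {c : ℝ | c • e3 ∈ A} := by
    obtain ⟨R, hR⟩ := hc.isBounded.exists_norm_le
    refine (isCompact_Icc (a := -R) (b := R)).of_isClosed_subset
      (hc.isClosed.preimage (by fun_prop)) fun c hcA => abs_le.1 ?_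
    have := hR _ hcA
    rwa [norm_smul, norm_e3, mul_one, Real.norm_eq_abs] at this
  obtain ⟨top, htop, hmax⟩ := hS.exists_isMaxOn ⟨c₀, (interior_subset hi : c₀ • e3 ∈ A)⟩
    (continuous_const.mul continuous_id (f := fun _ => s)).continuousOn
  have hT : top • e3 ∉ interior A := fun h => by
    have hev : ∀ᶠ u in 𝓝[>] (0 : ℝ), (top + s * u) • e3 ∈ A := by
      refine nhdsWithin_le_nhds ?_
      have : Tendsto (fun u : ℝ => (top + s * u) • e3) (𝓝 0) (𝓝 (top • e3)) := by
        have hcu : Continuous fun u : ℝ => (top + s * u) • e3 := by fun_prop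
        simpa using hcu.tendsto 0
      exact this (mem_interior_iff_mem_nhds.1 h)
    obtain ⟨u, hu, hu0⟩ := (hev.and eventually_mem_nhdsWithin).exists
    have h1 : s * (top + s * u) ≤ s * top := hmax hu
    rw [mul_add, ← mul_assoc, hss, one_mul] at h1
    linarith [mem_Ioi.1 hu0]
  obtain ⟨f, hf⟩ := geometric_hahn_banach_open_point hv.interior isOpen_interior hT
  set ν : R3 := fun i => f (Pi.single i 1) with hν
  have hfν : ∀ x, f x = dot ν x := fun x => linear_eq_dot (f : R3 →ₗ[ℝ] ℝ) x
  have hνA : ∀ x ∈ A, dot ν x ≤ top * ν 2 := fun x hx => by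
    have hsub : closure (interior A) ⊆ {y | f y ≤ f (top • e3)} :=
      closure_minimal (fun y hy => (hf y hy).le) (isClosed_le f.continuous continuous_const)
    have : f x ≤ f (top • e3) :=
      hsub ((hv.closure_interior_eq_closure_of_nonempty_interior ⟨_, hi⟩).symm ▸ subset_closure hx)
    rwa [hfν, hfν, dot_smul_right, dot_e3] at this
  have hlt : c₀ * ν 2 < top * ν 2 := by
    have := hf _ hi
    rwa [hfν, hfν, dot_smul_right, dot_smul_right, dot_e3] at this
  have hst : s * c₀ < s * top := by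
    refine lt_of_le_of_ne (hmax (interior_subset hi : c₀ • e3 ∈ A)) fun e => ?_
    rw [mul_left_cancel₀ (by rintro rfl; simp at hss) e] at hlt
    exact lt_irrefl _ hlt
  set σ := s * ν 2 with hσ
  have hσ0 : 0 < σ := by
    by_contra h
    have h1 : (s * top - s * c₀) * (s * ν 2) ≤ 0 :=
      mul_nonpos_of_nonneg_of_nonpos (by linarith) (not_lt.1 h)
    have h2 : (s * top - s * c₀) * (s * ν 2) = (top - c₀) * ν 2 := by
      linear_combination ((top - c₀) * ν 2) * hss
    linarith
  obtain ⟨R, hR⟩ := hc.isBounded.exists_norm_le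
  set δ := 1 / (3 * (|R| + |c₀| + |top|) + 1) with hδ
  have hδ0 : 0 < δ := by positivity
  set N := δ ^ 2 / 24 with hN
  set ε := min (s * top - s * c₀) (1 / (δ + (|M| + 1) / N)) with hε
  have hε0 : 0 < ε := lt_min (by linarith) (by positivity)
  have hεM : δ + (|M| + 1) / N ≤ 1 / ε := by
    rw [le_one_div (by positivity) hε0]; exact min_le_right _ _
  set c := top - s * ε with hcdef
  have hsc : s * c = s * top - ε := by rw [hcdef, mul_sub, ← mul_assoc, hss, one_mul]
  have hc0le : s * c₀ ≤ s * c := by linarith [min_le_left (s * top - s * c₀) (1 / (δ + (|M| + 1) / N))]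
  have hci : c • e3 ∈ interior A := by
    set lam := ε / (s * top - s * c₀) with hlam
    have hl0 : 0 < lam := div_pos hε0 (by linarith)
    have hl1 : lam ≤ 1 := (div_le_one (by linarith)).2 (min_le_left _ _)
    have := hv.combo_interior_self_mem_interior hi htop hl0 (sub_nonneg.2 hl1) (by ring)
    convert this using 1
    rw [smul_smul, smul_smul, ← add_smul]
    congr 1
    have e : lam * (s * top - s * c₀) = ε := div_mul_cancel₀ _ (by linarith)
    linear_combination hcdef + s * e - lam * (top - c₀) * hss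
  have hcb : |c| ≤ |c₀| + |top| := by
    have h1 : s * c ≤ s * top := by linarith
    rcases hs with rfl | rfl <;> rw [abs_le] <;> constructor <;>
      linarith [neg_abs_le c₀, le_abs_self c₀, neg_abs_le top, le_abs_self top, abs_nonneg c₀,
        abs_nonneg top]
  refine ⟨c, hc0le, hci, ?_⟩
  -- four points of the side
  set P : R3 := (σ * ε)⁻¹ • ν with hP
  set a : R3 := (s * (δ / 2)) • e3 with ha
  set w : Fin 4 → R3 := ![a, a + Pi.single 0 (δ / 2), a + Pi.single 1 (δ / 2), P] with hw
  have hball : ∀ y : R3, (∀ i, |y i| ≤ δ) → y ∈ polar (shiftDown A c) := by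
    intro y hy
    refine mem_polar_shiftDown.2 fun x hx => ?_
    have hxi : ∀ i, x i * y i ≤ |R| * δ := fun i => by
      refine (le_abs_self _).trans ?_
      rw [abs_mul]
      exact mul_le_mul ((norm_le_pi_norm x i).trans ((hR x hx).trans (le_abs_self R))) (hy i)
        (abs_nonneg _) (abs_nonneg R)
    have h1 : dot x y ≤ 3 * (|R| * δ) := by
      rw [dot, Fin.sum_univ_three]; linarith [hxi 0, hxi 1, hxi 2]
    have h2 : -(c * y 2) ≤ (|c₀| + |top|) * δ := by
      refine (neg_le_abs _).trans ?_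
      rw [abs_mul]
      exact mul_le_mul hcb (hy 2) (abs_nonneg _) (by positivity)
    have h3 : δ * (3 * (|R| + |c₀| + |top|) + 1) = 1 := by rw [hδ]; field_simp
    nlinarith [mul_nonneg hδ0.le (abs_nonneg c₀), mul_nonneg hδ0.le (abs_nonneg top)]
  have hsabs : |s| = 1 := by rcases hs with rfl | rfl <;> simp
  have hPs : s * P 2 = 1 / ε := by
    rw [hP, Pi.smul_apply, smul_eq_mul, mul_left_comm, ← hσ, one_div]
    field_simp
  have hwmem : ∀ i, w i ∈ polar (shiftDown A c) ∩ half s := by
    intro i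
    have hδ2 : |δ / 2| ≤ δ := by rw [abs_of_pos (by positivity)]; linarith
    have hpa : ∀ (j : Fin 3), |a j| ≤ δ := fun j => by
      fin_cases j <;> simp [ha, e3, abs_mul, hsabs] <;> linarith [abs_of_pos hδ0]
    have ha2 : ∀ (q : Fin 3), q ≠ 2 → (a + Pi.single q (δ / 2) : R3) 2 = s * (δ / 2) := fun q hq => by
      simp [ha, e3, Pi.single_eq_of_ne (Ne.symm hq)]
    have hpos : 0 < s * (s * (δ / 2)) := by rw [← mul_assoc, hss]; linarith
    fin_cases i
    · exact ⟨hball _ hpa, by show 0 < s * a 2; simpa [ha, e3] using hpos⟩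
    · refine ⟨hball _ fun j => ?_, by show 0 < s * (a + Pi.single 0 (δ / 2) : R3) 2; rw [ha2 0 (by decide)]; exact hpos⟩
      fin_cases j <;> simp [hw, ha, e3, abs_mul, hsabs] <;> linarith [abs_of_pos hδ0]
    · refine ⟨hball _ fun j => ?_, by show 0 < s * (a + Pi.single 1 (δ / 2) : R3) 2; rw [ha2 1 (by decide)]; exact hpos⟩
      fin_cases j <;> simp [hw, ha, e3, abs_mul, hsabs] <;> linarith [abs_of_pos hδ0]
    · refine ⟨mem_polar_shiftDown.2 fun x hx => ?_, by show 0 < s * P 2; rw [hPs]; positivity⟩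
      show dot x P - c * P 2 ≤ 1
      rw [hP, dot_smul_right, Pi.smul_apply, smul_eq_mul, dot_comm]
      have e : (σ * ε)⁻¹ * dot ν x - c * ((σ * ε)⁻¹ * ν 2) = (σ * ε)⁻¹ * (dot ν x - c * ν 2) := by
        ring
      rw [e, inv_mul_le_one₀ (mul_pos hσ0 hε0), hcdef, hσ]
      linarith [hνA x hx]
  set B : Matrix (Fin 3) (Fin 3) ℝ := Matrix.of fun q l => w q.succ l - w 0 l with hB
  set S := {x : R3 | (∀ i, 0 ≤ x i) ∧ ∑ i, x i ≤ 1} with hS
  have hsub : (fun y => a + y) '' (Matrix.toLin' B.transpose '' S) ⊆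
      polar (shiftDown A c) ∩ half s := by
    rintro _ ⟨_, ⟨y, ⟨y0, y1⟩, rfl⟩, rfl⟩
    have := ((good_shiftDown hc hv hci).good_polar.conv.inter (convex_half s)).sum_mem
      (t := (Finset.univ : Finset (Fin 4))) (w := (Fin.cons (1 - ∑ q, y q) y : Fin 4 → ℝ)) (z := w)
      (fun i _ => by
        induction i using Fin.cases with
        | zero => simpa using y1
        | succ q => simpa using y0 q)
      (by simp [Fin.sum_univ_succ]) (fun i _ => hwmem i)
    convert this using 1
    funext l
    simp [hB, hw, Matrix.mulVec, dotProduct, Fin.sum_univ_succ]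
    ring
  have hdet : B.det = (δ / 2) ^ 2 * (P 2 - s * (δ / 2)) := by
    rw [Matrix.det_fin_three]
    simp [hB, hw, ha, e3]
    exact Or.inl (sq _).symm
  have hvol : |B.det| / 6 ≤ side s (shiftDown A c) := by
    refine le_trans (le_of_eq ?_) (measureReal_mono hsub (measure_ne_top_of_subset inter_subset_left
      (good_shiftDown hc hv hci).good_polar.cpt.measure_lt_top.ne))
    rw [image_add_left, measureReal_def, measure_preimage_add, Measure.addHaar_image_linearMap,
      ENNReal.toReal_mul, ENNReal.toReal_ofReal (abs_nonneg _), LinearMap.det_toLin',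
      Matrix.det_transpose, ← measureReal_def, hS, vol_corner]
    norm_num [Nat.factorial]
    ring
  refine le_trans ?_ hvol
  have h1 : (δ / 2) ^ 2 * (1 / ε - δ / 2) ≤ |B.det| := by
    have : s * B.det = (δ / 2) ^ 2 * (1 / ε - δ / 2) := by
      rw [hdet, ← hPs]; linear_combination (-(δ / 2) ^ 3) * hss
    rw [← this]
    refine (le_abs_self _).trans ?_
    rw [abs_mul, hsabs, one_mul]
  have h2 : (|M| + 1) ≤ N * (1 / ε - δ) := by
    rw [← div_le_iff₀' (show 0 < N by positivity)]; linarith
  rw [hN] at h2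
  nlinarith [le_abs_self M, mul_pos hδ0 hδ0]

/-- A centre on the line splitting the polar in the ratio `ρ`. -/
lemma exists_balanced (hc : IsCompact A) (hv : Convex ℝ A) {c₀ : ℝ} (hi : c₀ • e3 ∈ interior A)
    {ρ : ℝ} (hρ : 0 < ρ) :
    ∃ c, c • e3 ∈ interior A ∧ side 1 (shiftDown A c) = ρ * side (-1) (shiftDown A c) := by
  obtain ⟨c₁, h1a, h1i, h1⟩ := side_large hc hv hi (s := 1) (Or.inl rfl)
    (ρ * side (-1) (shiftDown A c₀))
  obtain ⟨c₂, h2a, h2i, h2⟩ := side_large hc hv hi (s := -1) (Or.inr rfl)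
    (side 1 (shiftDown A c₀) / ρ)
  rw [div_le_iff₀ hρ] at h2
  set F := fun c => side 1 (shiftDown A c) - ρ * side (-1) (shiftDown A c) with hF
  have hF1 : 0 ≤ F c₁ := by
    have := side_mono hc hv hi (s := -1) (c := c₁) (by linarith)
    simp only [hF]; nlinarith
  have hF2 : F c₂ ≤ 0 := by
    have := side_mono hc hv hi (s := 1) (c := c₂) (by linarith)
    simp only [hF]; linarith
  set I := {c : ℝ | c • e3 ∈ interior A}
  have hIo : IsOpen I := isOpen_interior.preimage (by fun_prop)
  have hcont : ContinuousOn F I := ((side_convexOn hc hv 1).continuousOn hIo).sub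
    (continuousOn_const.mul ((side_convexOn hc hv (-1)).continuousOn hIo))
  have hsub : uIcc c₂ c₁ ⊆ I := (side_convexOn hc hv 1).1.ordConnected.uIcc_subset h2i h1i
  obtain ⟨c, hcI, hcF⟩ := intermediate_value_uIcc (hcont.mono hsub)
    (show (0 : ℝ) ∈ uIcc (F c₂) (F c₁) from Icc_subset_uIcc ⟨hF2, hF1⟩)
  exact ⟨c, hsub hcI, sub_eq_zero.1 hcF⟩

lemma exists_line {Kr K : Set R3} (hc : Convex ℝ Kr) (hi : (interior Kr).Nonempty)
    (hK : Good K) (hsh : ∀ x ∈ K, ∃ d : ℝ, x + d • e3 ∈ Kr) : ∃ c : ℝ, c • e3 ∈ interior Kr := by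
  obtain ⟨p, hp⟩ := hi
  obtain ⟨ε, hε, hball⟩ := Metric.mem_nhds_iff.1 (mem_interior_iff_mem_nhds.1 hK.int)
  set δ := ε / (2 * (‖p‖ + 1)) with hδ
  have hδ0 : 0 < δ := by positivity
  obtain ⟨d, hd⟩ := hsh ((-δ) • p) (hball (by
    rw [Metric.mem_ball, dist_zero_right, norm_smul, norm_neg, Real.norm_eq_abs, abs_of_pos hδ0,
      hδ, div_mul_eq_mul_div, div_lt_iff₀ (by positivity)]
    nlinarith [norm_nonneg p]))
  refine ⟨d / (1 + δ), ?_⟩
  have := hc.combo_interior_self_mem_interior hp hd (a := δ / (1 + δ)) (b := 1 / (1 + δ))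
    (by positivity) (by positivity) (by field_simp; ring)
  convert this using 1
  rw [smul_add, smul_smul, smul_smul, ← add_assoc, ← add_smul,
    show δ / (1 + δ) + 1 / (1 + δ) * -δ = 0 by ring, zero_smul, zero_add,
    show 1 / (1 + δ) * d = d / (1 + δ) by ring]

/-- Centres of the two ends that beat the origin in the middle. -/
theorem shadow_centres {Kr K Ks : Set R3} (hr : IsCompact Kr) (hrc : Convex ℝ Kr)
    (hri : (interior Kr).Nonempty) (h : Good K) (hs : IsCompact Ks) (hsc : Convex ℝ Ks)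
    (hsi : (interior Ks).Nonempty) (hsh : Shadow Kr K Ks) :
    ∃ zr ∈ interior Kr, ∃ zs ∈ interior Ks, (volume.real (polar K))⁻¹ ≤
      ((volume.real (polar ((fun x => x - zr) '' Kr)))⁻¹ +
        (volume.real (polar ((fun x => x - zs) '' Ks)))⁻¹) / 2 := by
  obtain ⟨r₀, hr₀⟩ := exists_line hrc hri h fun x hx => by
    obtain ⟨d, hd, -⟩ := hsh x hx; exact ⟨d, hd⟩
  obtain ⟨s₀, hs₀⟩ := exists_line hsc hsi h fun x hx => by
    obtain ⟨d, -, hd⟩ := hsh x hx
    exact ⟨-d, by rwa [neg_smul, ← sub_eq_add_neg]⟩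
  obtain ⟨-, -, hu⟩ := side_data h (s := 1) (Or.inl rfl)
  obtain ⟨-, -, hl⟩ := side_data h (s := -1) (Or.inr rfl)
  set ρ := side 1 K / side (-1) K with hρ
  have hρ0 : 0 < ρ := div_pos hu hl
  obtain ⟨cr, hcr, hbr⟩ := exists_balanced hr hrc hr₀ hρ0
  obtain ⟨cs, hcs, hbs⟩ := exists_balanced hs hsc hs₀ hρ0
  have hgr := good_shiftDown hr hrc hcr
  have hgs := good_shiftDown hs hsc hcs
  refine ⟨cr • e3, hcr, cs • e3, hcs, ?_⟩
  show _ ≤ ((volume.real (polar (shiftDown Kr cr)))⁻¹ +
    (volume.real (polar (shiftDown Ks cs)))⁻¹) / 2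
  have hsh' : Shadow (shiftDown Kr cr) ((fun x => x + (-((cr + cs) / 2)) • e3) '' K)
      (shiftDown Ks cs) := by
    rintro _ ⟨x, hx, rfl⟩
    obtain ⟨d, hd1, hd2⟩ := hsh x hx
    refine ⟨d - cr + (cr + cs) / 2, ⟨_, hd1, ?_⟩, ⟨_, hd2, ?_⟩⟩
    · show x + d • e3 - cr • e3 = x + (-((cr + cs) / 2)) • e3 + (d - cr + (cr + cs) / 2) • e3
      rw [add_sub_assoc, ← sub_smul, add_assoc, ← add_smul]; ring_nf
    · show x - d • e3 - cs • e3 = x + (-((cr + cs) / 2)) • e3 - (d - cr + (cr + cs) / 2) • e3
      rw [sub_sub, ← add_smul, add_sub_assoc, ← sub_smul, sub_eq_add_neg x, ← neg_smul]; ring_nf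
  rw [total_eq h, total_eq hgr, total_eq hgs, hbr, hbs,
    show side 1 K = ρ * side (-1) K by rw [hρ, div_mul_cancel₀ _ hl.ne']]
  have e : ∀ x : ℝ, (ρ * x + x)⁻¹ = (ρ + 1)⁻¹ * x⁻¹ := fun x => by
    rw [← mul_inv]; ring_nf
  rw [e, e, e, ← mul_add, mul_div_assoc]
  refine mul_le_mul_of_nonneg_left ?_ (by positivity)
  rcases le_total 0 ((cr + cs) / 2) with hz | hz
  · exact half_harmonic hgr h hgs hsh' (s := -1) (Or.inr rfl) (by linarith)
  · have h1 := half_harmonic hgr h hgs hsh' (s := 1) (Or.inl rfl) (by linarith)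
    rw [show side 1 K = ρ * side (-1) K by rw [hρ, div_mul_cancel₀ _ hl.ne'], hbr, hbs, mul_inv,
      mul_inv, mul_inv, ← mul_add, mul_div_assoc] at h1
    exact le_of_mul_le_mul_left h1 (inv_pos.2 hρ0)

end Vale.Agent.P248.Three
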