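import Vale.Agent.P248.Three.Pairs
import Mathlib.LinearAlgebra.Matrix.ToLinearEquiv

/-!
# P248: a sweep bound for the number of incidences, and the existence of a speed
-/

open MeasureTheory Set
open scoped Pointwise

namespace Vale.Agent.P248.Three

variable {m k : ℕ} {v : Fin m → R3} {a : Fin k → R3}

/-- Three vectors orthogonal to one nonzero vector are dependent. -/
lemma exists_dep {x y z u : R3} (hu : u ≠ 0) (hx : dot x u = 0) (hy : dot y u = 0)
    (hz : dot z u = 0) :
    ∃ c₁ c₂ c₃ : ℝ, (c₁ ≠ 0 ∨ c₂ ≠ 0 ∨ c₃ ≠ 0) ∧ c₁ • x + c₂ • y + c₃ • z = 0 := by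
  let M : Matrix (Fin 3) (Fin 3) ℝ := Matrix.of ![x, y, z]
  have hdet : M.det = 0 := Matrix.exists_mulVec_eq_zero_iff.1 ⟨u, hu, by
    funext i
    fin_cases i
    · exact hx
    · exact hy
    · exact hz⟩
  obtain ⟨c, hc, hcM⟩ := Matrix.exists_vecMul_eq_zero_iff.2 hdet
  refine ⟨c 0, c 1, c 2, ?_, ?_⟩
  · by_contra hno
    push Not at hno
    exact hc (funext fun i => by fin_cases i <;> simp [hno.1, hno.2.1, hno.2.2])
  · funext i
    have := congrFun hcM i
    simp only [M, Matrix.vecMul, dotProduct, Fin.sum_univ_three, Matrix.of_apply] at this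
    simpa using this

open Polynomial in
/-- A direction that separates all the points of an injective list. -/
lemma exists_generic (hinj : Function.Injective v) :
    ∃ w : R3, Function.Injective fun i => dot w (v i) := by
  have hfin : ∀ p : Fin m × Fin m, {t : ℝ | v p.1 ≠ v p.2 ∧
      dot ![1, t, t ^ 2] (v p.1) = dot ![1, t, t ^ 2] (v p.2)}.Finite := by
    intro p
    rcases eq_or_ne (v p.1) (v p.2) with e | e
    · simp [e]
    set d : R3 := v p.1 - v p.2 with hd
    refine (Polynomial.finite_setOfPred_isRoot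
      (p := C (d 0) + C (d 1) * X + C (d 2) * X ^ 2) ?_).subset fun t ht => ?_
    · intro h0
      refine e (sub_eq_zero.1 ?_)
      funext i
      have := congrArg (fun P : ℝ[X] => P.coeff i) h0
      simp only [coeff_add, coeff_C_mul, coeff_X_pow, coeff_X, coeff_C, coeff_zero] at this
      fin_cases i <;> simpa [hd] using this
    · obtain ⟨-, h2⟩ := ht
      simp only [dot, Fin.sum_univ_three, Matrix.cons_val_zero, Matrix.cons_val_one,
        Matrix.cons_val] at h2
      simp only [mem_ofPred_eq, IsRoot.def, eval_add, eval_mul, eval_C, eval_X, eval_pow, hd,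
        Pi.sub_apply]
      linear_combination h2
  obtain ⟨t, ht⟩ := (Set.finite_iUnion hfin).exists_notMem
  refine ⟨![1, t, t ^ 2], fun i l e => by_contra fun hil => ht ?_⟩
  exact mem_iUnion.2 ⟨(i, l), fun he => hil (hinj he), e⟩

/-- A point strictly between two others of its facet, in the sweep direction. -/
def Mid (v : Fin m → R3) (a : Fin k → R3) (w : R3) (i : Fin m) (j : Fin k) : Prop :=
  i ∈ contacts v a j ∧ (∃ p ∈ contacts v a j, dot w (v i) < dot w (v p)) ∧
    ∃ p ∈ contacts v a j, dot w (v p) < dot w (v i)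

/-- A point is strictly between in at most two facets. -/
lemma Dual.mid_card_le (h : Dual v a) (hv : Irred v) (ha : Irred a) {w : R3} (i : Fin m)
    {s : Finset (Fin k)} (hs : ∀ j ∈ s, Mid v a w i j) : s.card ≤ 2 := by
  have key : ∀ j ∈ s, ∃ u : R3, dot w u = 0 ∧ dot (a j) u = 0 ∧
      ∀ l ∈ s, l ≠ j → dot (a l) u < 0 := by
    intro j hj
    obtain ⟨hi, ⟨p, hp, hpi⟩, ⟨q, hq, hqi⟩⟩ := hs j hj
    rw [mem_contacts] at hi hp hq
    set θ := (dot w (v i) - dot w (v q)) / (dot w (v p) - dot w (v q)) with hθ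
    have hden : 0 < dot w (v p) - dot w (v q) := by linarith
    have θ0 : 0 < θ := div_pos (by linarith) hden
    have θ1 : θ < 1 := (div_lt_one hden).2 (by linarith)
    set u : R3 := θ • (v p - v i) + (1 - θ) • (v q - v i) with hu
    have hdot : ∀ c : R3, dot c u =
        θ * (dot c (v p) - dot c (v i)) + (1 - θ) * (dot c (v q) - dot c (v i)) := fun c => by
      rw [hu, dot_add_right, dot_smul_right, dot_smul_right, dot_sub_right, dot_sub_right]
    have hwu : dot w u = 0 := by
      rw [hdot]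
      have : θ * (dot w (v p) - dot w (v q)) = dot w (v i) - dot w (v q) :=
        div_mul_cancel₀ _ hden.ne'
      linarith
    have hu0 : u ≠ 0 := by
      intro h0
      refine hv i ?_
      have e : θ • v p + (1 - θ) • v q = v i := by
        rw [hu] at h0
        rw [← sub_eq_zero, ← h0]
        module
      have hpne : p ≠ i := by rintro rfl; linarith
      have hqne : q ≠ i := by rintro rfl; linarith
      have hm := convex_convexHull ℝ (v '' {i}ᶜ) (subset_convexHull ℝ _ ⟨p, hpne, rfl⟩)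
        (subset_convexHull ℝ _ ⟨q, hqne, rfl⟩) θ0.le (sub_nonneg.2 θ1.le) (by ring)
      rwa [e] at hm
    have haj : dot (a j) u = 0 := by rw [hdot, hi, hp, hq]; ring
    refine ⟨u, hwu, haj, fun l hl hlj => ?_⟩
    have hil : dot (a l) (v i) = 1 := mem_contacts.1 (hs l hl).1
    have hpl := h.le_one' p l
    have hql := h.le_one' q l
    by_contra hge
    rw [hdot, hil] at hge
    have hp' : dot (a l) (v p) = 1 := by
      nlinarith [mul_nonneg (sub_nonneg.2 θ1.le) (sub_nonneg.2 hql)]
    have hq' : dot (a l) (v q) = 1 := by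
      nlinarith [mul_nonneg θ0.le (sub_nonneg.2 hpl)]
    obtain ⟨c₁, c₂, c₃, hc, hsum⟩ := exists_dep hu0 haj
      (show dot (a l) u = 0 by rw [hdot, hil, hp', hq']; ring) hwu
    have happ : ∀ z : R3, c₁ * dot (a j) z + c₂ * dot (a l) z + c₃ * dot w z = 0 := fun z => by
      rw [← dot_smul, ← dot_smul, ← dot_smul, ← dot_add, ← dot_add, hsum]
      simp [dot]
    have h1 := happ (v p)
    have h2 := happ (v q)
    rw [hp, hp'] at h1
    rw [hq, hq'] at h2
    have hc3 : c₃ = 0 :=
      (mul_eq_zero.1 (show c₃ * (dot w (v p) - dot w (v q)) = 0 by linarith)).resolve_right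
        hden.ne'
    subst hc3
    have hc2 : c₂ = -c₁ := by linarith
    subst hc2
    rw [zero_smul, add_zero, neg_smul, ← sub_eq_add_neg, ← smul_sub] at hsum
    rcases smul_eq_zero.1 hsum with hc0 | hc0
    · simp [hc0] at hc
    · exact ha.ne (Ne.symm hlj) (sub_eq_zero.1 hc0)
  by_contra hcard
  obtain ⟨j₁, j₂, j₃, h1, h2, h3, h12, h13, h23⟩ := Finset.two_lt_card_iff.1 (not_le.1 hcard)
  obtain ⟨u₁, w1, e1, f1⟩ := key j₁ h1
  obtain ⟨u₂, w2, e2, f2⟩ := key j₂ h2
  obtain ⟨u₃, w3, e3', f3⟩ := key j₃ h3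
  have hw : w ≠ 0 := by
    rintro rfl
    obtain ⟨-, ⟨p, -, hp⟩, -⟩ := hs j₁ h1
    simp [dot] at hp
  obtain ⟨c₁, c₂, c₃, hc, hsum⟩ := exists_dep hw (dot_comm w u₁ ▸ w1) (dot_comm w u₂ ▸ w2)
    (dot_comm w u₃ ▸ w3)
  have happ : ∀ b : R3, c₁ * dot b u₁ + c₂ * dot b u₂ + c₃ * dot b u₃ = 0 := fun b => by
    rw [← dot_smul_right, ← dot_smul_right, ← dot_smul_right, ← dot_add_right, ← dot_add_right,
      hsum, dot_zero_right]
  have E1 := happ (a j₁)
  have E2 := happ (a j₂)
  have E3 := happ (a j₃)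
  rw [e1] at E1
  rw [e2] at E2
  rw [e3'] at E3
  have p12 := f2 j₁ h1 h12
  have p13 := f3 j₁ h1 h13
  have p21 := f1 j₂ h2 h12.symm
  have p23 := f3 j₂ h2 h23
  have p31 := f1 j₃ h3 h13.symm
  have p32 := f2 j₃ h3 h23.symm
  have hdet : dot (a j₁) u₂ * dot (a j₂) u₃ * dot (a j₃) u₁ +
      dot (a j₁) u₃ * dot (a j₂) u₁ * dot (a j₃) u₂ ≠ 0 :=
    (add_neg (mul_neg_of_pos_of_neg (mul_pos_of_neg_of_neg p12 p23) p31)
      (mul_neg_of_pos_of_neg (mul_pos_of_neg_of_neg p13 p21) p32)).ne
  have z1 : c₁ = 0 := (mul_eq_zero.1 (show c₁ * (dot (a j₁) u₂ * dot (a j₂) u₃ * dot (a j₃) u₁ +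
      dot (a j₁) u₃ * dot (a j₂) u₁ * dot (a j₃) u₂) = 0 by
    linear_combination (-(dot (a j₂) u₃ * dot (a j₃) u₂)) * E1 +
      (dot (a j₁) u₃ * dot (a j₃) u₂) * E2 +
      (dot (a j₁) u₂ * dot (a j₂) u₃) * E3)).resolve_right hdet
  subst z1
  have z2 : c₂ = 0 := by
    refine (mul_eq_zero.1 (?_ : c₂ * dot (a j₃) u₂ = 0)).resolve_right p32.ne
    linarith
  have z3 : c₃ = 0 := by
    refine (mul_eq_zero.1 (?_ : c₃ * dot (a j₂) u₃ = 0)).resolve_right p23.ne
    linarith
  simp [z2, z3] at hc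

theorem incidence_le {v : Fin m → R3} {a : Fin k → R3} (h : Dual v a) (hv : Irred v)
    (ha : Irred a) : ∑ j, (contacts v a j).card + 4 ≤ 2 * k + 2 * m := by
  classical
  obtain ⟨w, hw⟩ := exists_generic (v := v) fun i l e => by_contra fun hne => hv.ne hne e
  have h4 := h.four_le
  have hfac : ∀ j, (contacts v a j).card ≤
      (Finset.univ.filter fun i => Mid v a w i j).card + 2 := by
    intro j
    rcases (contacts v a j).eq_empty_or_nonempty with hC | hC
    · simp [hC]
    obtain ⟨t, ht, htmax⟩ := (contacts v a j).exists_max_image (fun i => dot w (v i)) hC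
    obtain ⟨b, hb, hbmin⟩ := (contacts v a j).exists_min_image (fun i => dot w (v i)) hC
    refine le_trans (Finset.card_le_card (t := (Finset.univ.filter fun i => Mid v a w i j) ∪ {t, b})
      fun i hi => ?_) ((Finset.card_union_le _ _).trans (Nat.add_le_add_left Finset.card_le_two _))
    by_cases hit : i = t
    · simp [hit]
    by_cases hib : i = b
    · simp [hib]
    refine Finset.mem_union_left _ (Finset.mem_filter.2 ⟨Finset.mem_univ i, hi, ?_, ?_⟩)
    · exact ⟨t, ht, lt_of_le_of_ne (htmax i hi) fun e => hit (hw e)⟩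
    · exact ⟨b, hb, lt_of_le_of_ne (hbmin i hi) fun e => hib (hw e).symm⟩
  have hU : (Finset.univ : Finset (Fin m)).Nonempty := ⟨⟨0, by omega⟩, Finset.mem_univ _⟩
  obtain ⟨T, -, hT⟩ := Finset.univ.exists_max_image (fun i => dot w (v i)) hU
  obtain ⟨B, -, hB⟩ := Finset.univ.exists_min_image (fun i => dot w (v i)) hU
  have hTB : T ≠ B := by
    rintro rfl
    have e : ∀ i, i = T := fun i =>
      hw (le_antisymm (hT i (Finset.mem_univ i)) (hB i (Finset.mem_univ i)))
    have := (e ⟨0, by omega⟩).trans (e ⟨1, by omega⟩).symm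
    simp at this
  have hsum : ∑ i, (Finset.univ.filter fun j => Mid v a w i j).card + 4 ≤ 2 * m := by
    rw [← Finset.sum_subset (Finset.subset_univ ((Finset.univ.erase T).erase B))]
    · have h1 := Finset.sum_le_card_nsmul ((Finset.univ.erase T).erase B)
        (fun i => (Finset.univ.filter fun j => Mid v a w i j).card) 2
        (fun i _ => h.mid_card_le hv ha i fun j hj => (Finset.mem_filter.1 hj).2)
      rw [Finset.card_erase_of_mem (Finset.mem_erase.2 ⟨hTB.symm, Finset.mem_univ B⟩),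
        Finset.card_erase_of_mem (Finset.mem_univ T), Finset.card_univ, Fintype.card_fin,
        smul_eq_mul] at h1
      omega
    · intro i _ hi
      rw [Finset.card_eq_zero, Finset.filter_eq_empty_iff]
      rintro j - ⟨-, ⟨p, -, hp⟩, ⟨q, -, hq⟩⟩
      simp only [Finset.mem_erase, Finset.mem_univ, and_true, not_and, ne_eq, not_not] at hi
      rcases eq_or_ne i B with rfl | hne
      · exact absurd hq (not_lt.2 (hB q (Finset.mem_univ q)))
      · obtain rfl := hi hne
        exact absurd hp (not_lt.2 (hT p (Finset.mem_univ p)))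
  have hswap : ∑ j, (Finset.univ.filter fun i => Mid v a w i j).card =
      ∑ i, (Finset.univ.filter fun j => Mid v a w i j).card := by
    simp only [Finset.card_filter]
    exact Finset.sum_comm
  have := Finset.sum_le_sum (s := Finset.univ) fun j _ => hfac j
  rw [Finset.sum_add_distrib, Finset.sum_const, Finset.card_univ, Fintype.card_fin, smul_eq_mul,
    hswap] at this
  omega

/-- A linear system with more unknowns than equations gives a speed that is not affine. -/
lemma Dual.exists_speed_of_count (h : Dual v a) (ha : Irred a) (S : Finset (Fin k))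
    (hS : ∀ j ∉ S, a j 2 = 0)
    (hcount : ∑ j ∈ S, (contacts v a j).card + 5 ≤ m + 3 * S.card) :
    ∃ (α : Fin m → ℝ) (r : Fin k → R3),
      (∀ j, a j 2 ≠ 0 → ∀ i ∈ contacts v a j, dot (r j) (v i) = α i) ∧
      ¬ ∃ (c : R3) (c₀ : ℝ), ∀ i, α i = dot c (v i) + c₀ := by
  classical
  let L : ((Fin m → ℝ) × (S → R3)) →ₗ[ℝ] (((j : S) × (contacts v a j : Finset (Fin m))) → ℝ) :=
    LinearMap.pi fun p =>
      dotL (v p.2.1) ∘ₗ LinearMap.proj (R := ℝ) (φ := fun _ : S => R3) p.1 ∘ₗ
          LinearMap.snd ℝ (Fin m → ℝ) (S → R3) -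
        LinearMap.proj (R := ℝ) (φ := fun _ : Fin m => ℝ) p.2.1 ∘ₗ
          LinearMap.fst ℝ (Fin m → ℝ) (S → R3)
  have hker : ∀ x ∈ L.ker, ∀ (j : S), ∀ i ∈ contacts v a j, dot (x.2 j) (v i) = x.1 i := by
    intro x hx j i hi
    have := congrFun (LinearMap.mem_ker.1 hx) ⟨j, i, hi⟩
    simp only [L, LinearMap.pi_apply, LinearMap.sub_apply, LinearMap.comp_apply,
      LinearMap.proj_apply, LinearMap.fst_apply, LinearMap.snd_apply, dotL_apply, Pi.zero_apply,
      sub_eq_zero] at this
    rwa [dot_comm]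
  let Φ : (R3 × ℝ) →ₗ[ℝ] (Fin m → ℝ) :=
    LinearMap.pi fun i => dotL (v i) ∘ₗ LinearMap.fst ℝ _ _ + LinearMap.snd ℝ _ _
  by_contra hno
  push Not at hno
  have hmem : ∀ x : L.ker, x.1.1 ∈ Φ.range := by
    intro x
    obtain ⟨c, c₀, hc⟩ := hno x.1.1 (fun j => if hj : j ∈ S then x.1.2 ⟨j, hj⟩ else 0)
      fun j hj i hi => by
        have hjS : j ∈ S := by_contra fun hn => hj (hS j hn)
        rw [dif_pos hjS]
        exact hker x.1 x.2 ⟨j, hjS⟩ i hi
    refine ⟨(c, c₀), funext fun i => ?_⟩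
    simp [Φ, hc i, dot_comm]
  let g : L.ker →ₗ[ℝ] Φ.range :=
    (LinearMap.fst ℝ _ _ ∘ₗ L.ker.subtype).codRestrict Φ.range hmem
  have hg : Function.Injective g := by
    rw [injective_iff_map_eq_zero]
    intro x hx
    have hα : x.1.1 = 0 := congrArg Subtype.val hx
    refine Subtype.ext (Prod.ext hα (funext fun j => ?_))
    have hz : dotL (x.1.2 j) = 0 := by
      refine LinearMap.ext_on (h.span_contacts ha j) ?_
      rintro _ ⟨i, hi, rfl⟩
      simpa [hα] using hker x.1 x.2 j i hi
    funext q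
    simpa [dot, Pi.single_apply] using LinearMap.congr_fun hz (Pi.single q 1)
  have h1 := LinearMap.finrank_le_finrank_of_injective hg
  have h2 : Module.finrank ℝ Φ.range ≤ 4 := by
    refine (LinearMap.finrank_range_le Φ).trans ?_
    simp
  have h3 := L.finrank_range_add_finrank_ker
  have h4 := Submodule.finrank_le L.range
  simp only [Module.finrank_prod, Module.finrank_pi_fintype, Module.finrank_self,
    Finset.sum_const, Finset.card_univ, Fintype.card_fin, Fintype.card_coe, smul_eq_mul,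
    Fintype.card_sigma, mul_one] at h3 h4
  rw [Finset.sum_coe_sort S fun j => (contacts v a j).card] at h4
  omega

theorem exists_speed {v : Fin m → R3} {a : Fin k → R3} (h : Dual v a) (hv : Irred v)
    (ha : Irred a) (hmk : m ≤ k)
    (hcase : (∃ j, a j 2 = 0 ∧ 4 ≤ (contacts v a j).card) ∨
      (5 ≤ m ∧ ∀ j, (contacts v a j).card = 3)) :
    ∃ (α : Fin m → ℝ) (r : Fin k → R3),
      (∀ j, a j 2 ≠ 0 → ∀ i ∈ contacts v a j, dot (r j) (v i) = α i) ∧
      ¬ ∃ (c : R3) (c₀ : ℝ), ∀ i, α i = dot c (v i) + c₀ := by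
  rcases hcase with ⟨j₀, hj₀, h4⟩ | ⟨hm, h3⟩
  · refine h.exists_speed_of_count ha (Finset.univ.erase j₀) (fun j hj => ?_) ?_
    · simp only [Finset.mem_erase, Finset.mem_univ, and_true, ne_eq, not_not] at hj
      rwa [hj]
    · have hI := incidence_le h hv ha
      rw [← Finset.add_sum_erase _ _ (Finset.mem_univ j₀)] at hI
      rw [Finset.card_erase_of_mem (Finset.mem_univ j₀), Finset.card_univ, Fintype.card_fin]
      have := j₀.isLt
      omega
  · refine h.exists_speed_of_count ha Finset.univ (fun j hj => absurd (Finset.mem_univ j) hj) ?_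
    simp only [h3, Finset.sum_const, Finset.card_univ, Fintype.card_fin, smul_eq_mul]
    omega

end Vale.Agent.P248.Three
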