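import Vale.Agent.P248.Three.Fibre

/-!
# P248: both ends of a vertical motion have fewer vertices or facets
-/

open MeasureTheory Set
open scoped Pointwise Topology

namespace Vale.Agent.P248.Three

variable {m k : ℕ} {v : Fin m → R3} {a : Fin k → R3} {α : Fin m → ℝ} {r : Fin k → R3}

lemma facet_ne_zero (hsp : ∀ j, Submodule.span ℝ (v '' (contacts v a j : Set (Fin m))) = ⊤)
    (j : Fin k) : a j ≠ 0 := by
  intro h0
  have hempty : (contacts v a j : Set (Fin m)) = ∅ := eq_empty_iff_forall_notMem.2 fun i hi => by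
    rw [Finset.mem_coe, mem_contacts, h0] at hi
    simp [dot] at hi
  have := hsp j
  rw [hempty, image_empty, Submodule.span_empty] at this
  exact bot_ne_top this

lemma eq_of_span {S : Set R3} (hS : Submodule.span ℝ S = ⊤) {c : R3}
    (h : ∀ x ∈ S, dot c x = 0) : c = 0 := by
  have hle : Submodule.span ℝ S ≤ LinearMap.ker (dotL c) := Submodule.span_le.2 h
  rw [hS] at hle
  funext i
  have := hle (Submodule.mem_top (x := (Pi.single i 1 : R3)))
  simpa [dot, Pi.single_apply] using this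

lemma hyperplane_null {c : R3} {γ : ℝ} (h : c ≠ 0 ∨ γ ≠ 0) :
    volume {x : R3 | dot c x = γ} = 0 := by
  by_cases hne : ∃ x₀, dot c x₀ = γ
  · obtain ⟨x₀, hx₀⟩ := hne
    have hc : c ≠ 0 := by
      rintro rfl
      exact h.resolve_left (not_not.2 rfl) (by rw [← hx₀]; simp [dot])
    have e : {x : R3 | dot c x = γ} = (fun x => x + -x₀) ⁻¹' (LinearMap.ker (dotL c) : Set R3) := by
      ext x
      simp [← sub_eq_add_neg, dot_sub_right, hx₀, sub_eq_zero]
    rw [e, measure_preimage_add_right]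
    refine Measure.addHaar_submodule _ _ fun htop => hc ?_
    funext i
    have : (Pi.single i 1 : R3) ∈ LinearMap.ker (dotL c) := htop ▸ Submodule.mem_top
    simpa [dot, Pi.single_apply] using this
  · rw [show {x : R3 | dot c x = γ} = ∅ from eq_empty_iff_forall_notMem.2 fun x hx => hne ⟨x, hx⟩,
      measure_empty]

/-- Rescaled speeds give a motion that stops on both sides. -/
lemma exists_motion (h : Dual v a)
    (hr : ∀ j, a j 2 ≠ 0 → ∀ i ∈ contacts v a j, dot (r j) (v i) = α i)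
    (hne : ¬ ∃ (c : R3) (c₀ : ℝ), ∀ i, α i = dot c (v i) + c₀) :
    ∃ (α' : Fin m → ℝ) (r' : Fin k → R3) (T : ℝ), Motion v a α' r' T ∧
      (¬ ∃ (c : R3) (c₀ : ℝ), ∀ i, α' i = dot c (v i) + c₀) ∧
      ∀ t ∈ ({T, -T} : Set ℝ), ∃ i j, a j 2 ≠ 0 ∧ dot (a j) (v i) < 1 ∧
        (1 - dot (a j) (v i)) + t * rate v a α' r' i j = 0 := by
  classical
  set P := (Finset.univ : Finset (Fin m × Fin k)).filter
    fun p => a p.2 2 ≠ 0 ∧ dot (a p.2) (v p.1) < 1 with hP
  have hmem : ∀ p, p ∈ P ↔ a p.2 2 ≠ 0 ∧ dot (a p.2) (v p.1) < 1 := fun p => by simp [hP]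
  set q : Fin m × Fin k → ℝ := fun p => rate v a α r p.1 p.2 / (1 - dot (a p.2) (v p.1)) with hq
  have hnoteq : ∀ c : ℝ, ∃ p ∈ P, q p ≠ c := by
    by_contra hcon
    push Not at hcon
    obtain ⟨c, hc⟩ := hcon
    obtain ⟨j, hj⟩ := h.exists_facet one_ne_zero
    rw [one_mul] at hj
    refine hne ⟨r j - ((r j 2 - c) / a j 2) • a j, (r j 2 - c) / a j 2, fun i => ?_⟩
    have key : rate v a α r i j = c * (1 - dot (a j) (v i)) := by
      rcases (h.le_one' i j).eq_or_lt with e | e
      · rw [e, sub_self, mul_zero, rate, e, sub_self, mul_zero, zero_add,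
          hr j hj.ne' i (mem_contacts.2 e), sub_self, mul_zero]
      · have h1 : rate v a α r i j / (1 - dot (a j) (v i)) = c :=
          hc (i, j) ((hmem _).2 ⟨hj.ne', e⟩)
        rwa [div_eq_iff (by linarith)] at h1
    rw [rate] at key
    rw [dot_comm, dot_sub_right, dot_comm (v i), dot_comm (v i), dot_smul]
    field_simp
    linear_combination -key
  obtain ⟨p₁, hp₁, -⟩ := hnoteq 0
  obtain ⟨pM, hpM, hmax⟩ := P.exists_max_image q ⟨p₁, hp₁⟩
  obtain ⟨pm, hpm, hmin⟩ := P.exists_min_image q ⟨p₁, hp₁⟩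
  set c := (q pM + q pm) / 2 with hc
  set ρ := (q pM - q pm) / 2 with hρ
  have hρ0 : 0 < ρ := by
    obtain ⟨p, hp, hne'⟩ := hnoteq (q pM)
    have h1 := hmin p hp
    have h2 : q p < q pM := lt_of_le_of_ne (hmax p hp) hne'
    rw [hρ]; linarith
  set α' : Fin m → ℝ := fun i => α i - c * v i 2 with hα'
  set r' : Fin k → R3 := fun j => if a j 2 = 0 then 0 else r j - c • e3 with hr'
  have hrate : ∀ i j, a j 2 ≠ 0 →
      rate v a α' r' i j = rate v a α r i j - c * (1 - dot (a j) (v i)) := by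
    intro i j hj
    have e1 : dot (r' j) (v i) = dot (r j) (v i) - c * v i 2 := by
      simp only [hr', if_neg hj]
      rw [dot_comm, dot_sub_right, dot_smul_right, dot_e3, dot_comm]
    have e2 : r' j 2 = r j 2 - c := by simp [hr', hj, e3]
    rw [rate, rate, e1, e2, hα']
    ring
  have hbound : ∀ i j, |rate v a α' r' i j| ≤ ρ * (1 - dot (a j) (v i)) := by
    intro i j
    have hg := sub_nonneg.2 (h.le_one' i j)
    by_cases hj : a j 2 = 0
    · rw [show rate v a α' r' i j = 0 by simp [rate, hr', hj], abs_zero]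
      positivity
    rw [hrate i j hj]
    rcases (h.le_one' i j).eq_or_lt with e | e
    · rw [e, sub_self, mul_zero, mul_zero, sub_zero, rate, e, sub_self, mul_zero, zero_add,
        hr j hj i (mem_contacts.2 e), sub_self, mul_zero, abs_zero]
    · have hp : (i, j) ∈ P := (hmem _).2 ⟨hj, e⟩
      have h1 := hmax _ hp
      have h2 := hmin _ hp
      have hs : rate v a α r i j = q (i, j) * (1 - dot (a j) (v i)) := by
        rw [hq]; field_simp [(sub_pos.2 e).ne']
      rw [hs, ← sub_mul, abs_mul, abs_of_nonneg hg]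
      refine mul_le_mul_of_nonneg_right (abs_le.2 ?_) hg
      constructor <;> rw [hρ, hc] <;> linarith
  have htight : ∀ p ∈ P, ∀ t : ℝ, 1 + t * (q p - c) = 0 →
      (1 - dot (a p.2) (v p.1)) + t * rate v a α' r' p.1 p.2 = 0 := fun p hp t ht => by
    have hg : 1 - dot (a p.2) (v p.1) ≠ 0 := (sub_pos.2 ((hmem p).1 hp).2).ne'
    rw [hrate _ _ ((hmem p).1 hp).1]
    have hs : rate v a α r p.1 p.2 = q p * (1 - dot (a p.2) (v p.1)) := by
      rw [hq]; field_simp
    rw [hs]
    linear_combination (1 - dot (a p.2) (v p.1)) * ht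
  refine ⟨α', r', 1 / ρ, ⟨h, by positivity, fun j hj => by simp [hr', hj], fun i j e => ?_,
    fun t ht i j => ?_⟩, ?_, ?_⟩
  · have := hbound i j
    rw [e, sub_self, mul_zero] at this
    exact abs_nonpos_iff.1 this
  · have h1 : |t * rate v a α' r' i j| ≤ 1 / ρ * (ρ * (1 - dot (a j) (v i))) := by
      rw [abs_mul]
      exact mul_le_mul ht (hbound i j) (abs_nonneg _) (by positivity)
    rw [← mul_assoc, one_div_mul_cancel hρ0.ne', one_mul] at h1
    linarith [(abs_le.1 h1).1]
  · rintro ⟨c', c₀, hh⟩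
    refine hne ⟨c' + c • e3, c₀, fun i => ?_⟩
    have := hh i
    simp only [hα'] at this
    rw [dot_add, dot_smul, dot_comm e3, dot_e3]
    linarith
  · rintro t (rfl | rfl)
    · refine ⟨pm.1, pm.2, ((hmem _).1 hpm).1, ((hmem _).1 hpm).2, htight pm hpm _ ?_⟩
      rw [hc]; field_simp; rw [hρ]; ring
    · refine ⟨pM.1, pM.2, ((hmem _).1 hpM).1, ((hmem _).1 hpM).2, htight pM hpM _ ?_⟩
      rw [hc]; field_simp; rw [hρ]; ring

namespace Motion

variable {T t : ℝ} (M : Motion v a α r T)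
include M

lemma interior_Kt (hne : ¬ ∃ (c : R3) (c₀ : ℝ), ∀ i, α i = dot c (v i) + c₀) :
    (interior (Kt v α t)).Nonempty := by
  have hK := M.dual.good.zero_mem
  obtain ⟨lam, -, -, -⟩ := mem_hull_iff.1 hK
  refine interior_nonempty_of_not_flat (convex_convexHull ℝ _) ?_ fun c γ hc => ?_
  · have : (range v).Nonempty := convexHull_nonempty_iff.1 ⟨_, hK⟩
    obtain ⟨_, i, rfl⟩ := this
    exact ⟨_, subset_convexHull ℝ _ ⟨i, rfl⟩⟩
  have hv : ∀ i, dot c (v i) + t * α i * c 2 = γ := fun i => by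
    have := hc _ (subset_convexHull ℝ _ ⟨i, rfl⟩)
    rwa [vt, dot_move] at this
  by_contra hc0
  have hflat : ¬ ∀ i, dot c (v i) = γ := by
    intro hflat
    have hsub : convexHull ℝ (range v) ⊆ {x | dot c x ≤ γ} :=
      convexHull_subset_le (by rintro _ ⟨i, rfl⟩; exact (hflat i).le)
    have h1 : dot c 0 < γ := dot_lt_of_interior hsub hc0 M.dual.good.int
    have h2 : convexHull ℝ (range v) ⊆ {x | dot (-c) x ≤ -γ} :=
      convexHull_subset_le (by
        rintro _ ⟨i, rfl⟩
        rw [dot_comm, show -c = (-1 : ℝ) • c by simp, dot_smul_right, dot_comm, hflat i]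
        linarith)
    have h3 : dot (-c) 0 < -γ := dot_lt_of_interior h2 (neg_ne_zero.2 hc0) M.dual.good.int
    simp [dot] at h1 h3
    linarith
  by_cases h2 : t * c 2 = 0
  · exact hflat fun i => by linear_combination hv i - α i * h2
  · refine hne ⟨(-(1 / (t * c 2))) • c, γ / (t * c 2), fun i => ?_⟩
    have e : α i = (γ - dot c (v i)) / (t * c 2) := by
      rw [eq_div_iff h2]; linear_combination hv i
    rw [dot_smul, e]
    ring

/-- The moved body is cut out by the moved facets. -/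
lemma eq_Kt (hsp : ∀ j, Submodule.span ℝ (v '' (contacts v a j : Set (Fin m))) = ⊤)
    (hne : ¬ ∃ (c : R3) (c₀ : ℝ), ∀ i, α i = dot c (v i) + c₀) (ht : |t| ≤ T) :
    Kt v α t = {x | ∀ j, dot (At a r t j) x ≤ Bt r t j} := by
  set H := {x : R3 | ∀ j, dot (At a r t j) x ≤ Bt r t j} with hH
  refine (M.Kt_subset ht).antisymm fun x hx => ?_
  by_contra hxK
  obtain ⟨q, hq⟩ := M.interior_Kt (t := t) hne
  have hKc : IsClosed (Kt v α t) := ((finite_range _).isCompact_convexHull ℝ).isClosed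
  have hHc : Convex ℝ H := by
    rw [hH, Set.ofPred_forall]
    exact convex_iInter fun j => convex_halfSpace_le (dotL _).isLinear _
  set S := {τ : ℝ | q + τ • (x - q) ∈ Kt v α t} ∩ Icc 0 1 with hS
  have hSc : IsCompact S := isCompact_Icc.inter_left (hKc.preimage (by fun_prop))
  obtain ⟨τ, ⟨hτK, hτ0, hτ1⟩, hτmax⟩ :=
    hSc.exists_isGreatest ⟨0, by simpa using interior_subset hq, by simp⟩
  have hlt : τ < 1 := lt_of_le_of_ne hτ1 fun e => hxK (by simpa [e] using hτK)
  set w := q + τ • (x - q) with hw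
  have hwH : w ∈ interior H := by
    have := hHc.combo_interior_closure_mem_interior (interior_mono (M.Kt_subset ht) hq)
      (subset_closure hx) (sub_pos.2 hlt) hτ0 (by ring)
    convert this using 1
    rw [hw, smul_sub, sub_smul, one_smul]
    abel
  have hwi : w ∉ interior (Kt v α t) := fun hwi => by
    have hev : ∀ᶠ u in 𝓝[>] τ, q + u • (x - q) ∈ Kt v α t ∧ u < 1 := by
      refine nhdsWithin_le_nhds (Filter.Eventually.and ?_ (gt_mem_nhds hlt))
      exact (show Continuous fun u : ℝ => q + u • (x - q) by fun_prop).continuousAt.preimage_mem_nhds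
        (mem_interior_iff_mem_nhds.1 hwi)
    obtain ⟨u, ⟨hu, hu1⟩, hut⟩ := (hev.and eventually_mem_nhdsWithin).exists
    have := hτmax ⟨hu, by linarith [mem_Ioi.1 hut], hu1.le⟩
    linarith [mem_Ioi.1 hut]
  obtain ⟨s, hs⟩ := over_of_mem_Kt hτK
  obtain ⟨s₁, β₁, s₂, β₂, hf⟩ := M.exists_fibre hs
  obtain ⟨ε, hε, hball⟩ := Metric.mem_nhds_iff.1 (mem_interior_iff_mem_nhds.1 hwH)
  have hlen : s₁ + t * β₁ + ε / 2 ≤ s₂ + t * β₂ := by
    obtain ⟨-, hu⟩ := hf t ht
    have hp : w + (ε / 2) • e3 ∈ H := hball (by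
      rw [Metric.mem_ball, dist_eq_norm, add_sub_cancel_left, norm_smul,
        show ‖e3‖ = 1 by simp [e3, Pi.norm_single], mul_one, Real.norm_eq_abs,
        abs_of_pos (half_pos hε)]
      linarith)
    have e1 : w + s • e3 + (ε / 2 - s) • e3 = w + (ε / 2) • e3 := by
      rw [add_assoc, ← add_smul, add_sub_cancel]
    have e0 : w + s • e3 + (-s) • e3 = w := by
      rw [add_assoc, ← add_smul, add_neg_cancel, zero_smul, add_zero]
    have := ((hu (ε / 2 - s)).1 (by rw [e1]; exact hp)).2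
    have := ((hu (-s)).1 (by rw [e0]; exact M.Kt_subset ht hτK)).1
    linarith
  have hlen0 : s₁ < s₂ := by
    have := (hf (-t) (by rwa [abs_neg])).1
    linarith
  obtain ⟨-, hu0⟩ := hf 0 (by rw [abs_zero]; exact M.pos.le)
  have hin : ∀ u, s₁ ≤ u → u ≤ s₂ → w + (s + u) • e3 ∈ convexHull ℝ (range v) := fun u l1 l2 => by
    have := (hu0 u).2 (by linarith) (by linarith)
    rwa [Kt_zero, add_assoc, ← add_smul] at this
  set p := w + (s + (s₁ + s₂) / 2) • e3 with hp
  obtain ⟨j, hj⟩ : ∃ j, dot (a j) p = 1 := by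
    by_contra hno
    push Not at hno
    have hopen : IsOpen {y : R3 | ∀ j, dot (a j) y < 1} := by
      rw [Set.ofPred_forall]
      exact isOpen_iInter_of_finite fun j => isOpen_lt (continuous_dot_right _) continuous_const
    have hpk := hin ((s₁ + s₂) / 2) (by linarith) (by linarith)
    set U := (fun y : R3 => y + (p - w)) ⁻¹' {y | ∀ j, dot (a j) y < 1} ∩ interior H with hU
    have hwU : w ∈ U :=
      ⟨fun j => by
        show dot (a j) (w + (p - w)) < 1
        rw [add_sub_cancel]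
        exact lt_of_le_of_ne (M.dual.le_one hpk j) (hno j), hwH⟩
    refine hwi (mem_interior.2 ⟨U, fun y hy => ?_,
      (hopen.preimage (by fun_prop)).inter isOpen_interior, hwU⟩)
    have hyH : y ∈ H := interior_subset hy.2
    refine M.mem_Kt_of_over ht ⟨s + (s₁ + s₂) / 2, ?_⟩ hyH
    rw [M.dual.eq]
    intro j
    have := hy.1 j
    rw [hp, add_sub_cancel_left] at this
    exact this.le
  have ha2 : a j 2 = 0 := by
    have h1 := M.dual.le_one (hin s₁ le_rfl hlen0.le) j
    have h2 := M.dual.le_one (hin s₂ hlen0.le le_rfl) j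
    rw [hp, dot_move] at hj
    rw [dot_move] at h1 h2
    have hpos : 0 < (s₂ - s₁) / 2 := by linarith
    have e1 : a j 2 * ((s₂ - s₁) / 2) ≤ 0 := by linarith
    have e2 : 0 ≤ a j 2 * ((s₂ - s₁) / 2) := by linarith
    exact (mul_eq_zero.1 (le_antisymm e1 e2)).resolve_right hpos.ne'
  have hA : At a r t j = a j := by simp [At, M.vert j ha2]
  have hB : Bt r t j = 1 := by simp [Bt, M.vert j ha2]
  have := dot_lt_of_interior (S := H) (c := a j) (γ := 1)
    (fun y hy => by show dot (a j) y ≤ 1; rw [← hA, ← hB]; exact hy j) (facet_ne_zero hsp j) hwH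
  rw [hp, dot_move, ha2, mul_zero, add_zero] at hj
  linarith

/-- A new incidence makes a point or a half-space redundant. -/
lemma drop (hsp : ∀ j, Submodule.span ℝ (v '' (contacts v a j : Set (Fin m))) = ⊤) (ht : |t| ≤ T)
    {i₀ : Fin m} {j₀ : Fin k} (hj₀ : a j₀ 2 ≠ 0) (hlt : dot (a j₀) (v i₀) < 1)
    (hgap : (1 - dot (a j₀) (v i₀)) + t * rate v a α r i₀ j₀ = 0) :
    (∃ i, vt v α t i ∈ convexHull ℝ (vt v α t '' {i}ᶜ)) ∨
      ∃ j l, j ≠ l ∧ ∃ κ : ℝ, 0 < κ ∧ At a r t l = κ • At a r t j ∧ Bt r t l = κ * Bt r t j := by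
  classical
  set σ := a j₀ 2 with hσ
  have htight : dot (At a r t j₀) (vt v α t i₀) = Bt r t j₀ := by
    have := gap_eq (v := v) (a := a) (α := α) (r := r) t i₀ j₀
    rw [hgap, sub_eq_zero] at this
    exact this.symm
  obtain ⟨s, β, lam, j₁, l0, l1, hj₁, hl, he, hend⟩ :=
    M.exists_end hj₀ (subset_convexHull ℝ (range v) ⟨i₀, rfl⟩)
  obtain ⟨hendK, hmax⟩ := hend t ht
  by_cases hzero : lam i₀ = 0
  · left
    refine ⟨i₀, ?_⟩
    have hu1 : σ * (t * α i₀) ≤ σ * (s + t * β) := hmax _ fun j => M.vt_le ht i₀ j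
    have hu2 : σ * (s + t * β) ≤ σ * (t * α i₀) := by
      have h1 : dot (At a r t j₀) (v i₀ + (s + t * β) • e3) ≤ Bt r t j₀ :=
        M.Kt_subset ht hendK j₀
      rw [← htight, vt, dot_move, dot_move, At_two] at h1
      linarith
    have hu : t * α i₀ = s + t * β := mul_left_cancel₀ hj₀ (le_antisymm hu1 hu2)
    have e : vt v α t i₀ = ∑ i ∈ Finset.univ.erase i₀, lam i • vt v α t i := by
      rw [Finset.sum_erase _ (by simp [hzero]), he t, vt, hu]
    rw [e]
    refine (convex_convexHull ℝ _).sum_mem (fun i _ => l0 i) ?_ fun i hi =>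
      subset_convexHull ℝ _ ⟨i, by simpa using Finset.ne_of_mem_erase hi, rfl⟩
    rw [Finset.sum_erase _ hzero, l1]
  right
  have hi₁ : dot (a j₁) (v i₀) = 1 := hl i₀ hzero
  set C := insert i₀ (contacts v a j₀) with hC
  set W := {x : R3 | ∃ u : ℝ, x + u • e3 ∈ convexHull ℝ (v '' (C : Set (Fin m)))} with hW
  set R₀ := {x : R3 | x + ((1 - dot (a j₀) x) / a j₀ 2) • e3 ∈ convexHull ℝ (range v)} with hR₀
  have hWc : Convex ℝ W := by
    rintro y ⟨u, hu⟩ z ⟨u', hu'⟩ p q hp hq hpq
    refine ⟨p * u + q * u', ?_⟩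
    have := convex_convexHull ℝ (v '' (C : Set (Fin m))) hu hu' hp hq hpq
    convert this using 1
    simp only [smul_add, smul_smul, add_smul]
    abel
  have hWv : ∀ i ∈ C, ∀ u : ℝ, v i + u • e3 ∈ W := fun i hi u => ⟨-u, by
    rw [add_assoc, ← add_smul, add_neg_cancel, zero_smul, add_zero]
    exact subset_convexHull ℝ _ ⟨i, hi, rfl⟩⟩
  have hi₀W : v i₀ ∈ W := by simpa using hWv i₀ (Finset.mem_insert_self _ _) 0
  have hWi : (interior W).Nonempty := by
    refine interior_nonempty_of_not_flat hWc ⟨_, hi₀W⟩ fun c γ hc => ?_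
    have h1 := hc _ (hWv i₀ (Finset.mem_insert_self _ _) 1)
    have h0 := hc _ hi₀W
    rw [dot_move] at h1
    have hc2 : c 2 = 0 := by linarith
    have hsub : c - γ • a j₀ = 0 := eq_of_span (hsp j₀) fun y hy => by
      obtain ⟨i, hi, rfl⟩ := hy
      have := hc _ (hWv i (Finset.mem_insert_of_mem hi) 0)
      rw [zero_smul, add_zero] at this
      rw [dot_comm, dot_sub_right, dot_smul_right, dot_comm (v i), this, dot_comm (v i),
        mem_contacts.1 hi]
      ring
    have hγ : γ = 0 := by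
      have := congrFun hsub 2
      simp [hc2] at this
      exact this.resolve_right hj₀
    rwa [hγ, zero_smul, sub_zero] at hsub
  have hR₀c : IsClosed R₀ := by
    refine M.dual.good.cpt.isClosed.preimage ?_
    have := continuous_dot_right (a j₀)
    fun_prop
  have hi₀R : v i₀ ∉ R₀ := fun hR => by
    have h1 := M.dual.le_one hR j₁
    rw [dot_move, hi₁] at h1
    have h2 : (1 - dot (a j₀) (v i₀)) / a j₀ 2 * a j₁ 2 ≤ 0 := by linarith
    have h3 : 0 < (1 - dot (a j₀) (v i₀)) / a j₀ 2 * a j₁ 2 := by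
      rw [show (1 - dot (a j₀) (v i₀)) / a j₀ 2 * a j₁ 2 =
        (1 - dot (a j₀) (v i₀)) * (a j₀ 2 * a j₁ 2) / a j₀ 2 ^ 2 by field_simp]
      exact div_pos (mul_pos (sub_pos.2 hlt) hj₁) (by positivity)
    linarith
  have hUne : (interior W ∩ R₀ᶜ).Nonempty := by
    have hcl : v i₀ ∈ closure (interior W) :=
      (hWc.closure_interior_eq_closure_of_nonempty_interior hWi).symm ▸ subset_closure hi₀W
    obtain ⟨y, hy1, hy2⟩ := mem_closure_iff.1 hcl _ hR₀c.isOpen_compl hi₀R
    exact ⟨y, hy2, hy1⟩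
  have hcover : interior W ∩ R₀ᶜ ⊆ ⋃ l ∈ Finset.univ.filter fun l => l ≠ j₀ ∧ 0 < σ * a l 2,
      {x : R3 | dot ((a l 2)⁻¹ • At a r t l - σ⁻¹ • At a r t j₀) x =
        (a l 2)⁻¹ * Bt r t l - σ⁻¹ * Bt r t j₀} := by
    rintro x ⟨hxW, hxR⟩
    obtain ⟨u, hu⟩ := interior_subset hxW
    have hxK : x + u • e3 ∈ convexHull ℝ (range v) :=
      convexHull_mono (image_subset_range _ _) hu
    obtain ⟨s', β', lam', l, l0', l1', hj', hl', he', hend'⟩ := M.exists_end hj₀ hxK
    obtain ⟨hK', hmax'⟩ := hend' t ht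
    have hq : ∃ μ : ℝ, x + u • e3 + μ • e3 ∈ Kt v α t ∧
        dot (At a r t j₀) (x + u • e3 + μ • e3) = Bt r t j₀ := by
      have hconv : Convex ℝ {y : R3 | ∃ μ : ℝ, y + μ • e3 ∈ Kt v α t ∧
          dot (At a r t j₀) (y + μ • e3) = Bt r t j₀} := by
        rintro y ⟨μ, h1, h2⟩ z ⟨μ', h1', h2'⟩ p q hp hq hpq
        refine ⟨p * μ + q * μ', ?_⟩
        have e : p • y + q • z + (p * μ + q * μ') • e3 =
            p • (y + μ • e3) + q • (z + μ' • e3) := by
          simp only [smul_add, smul_smul, add_smul]; abel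
        rw [e]
        refine ⟨convex_convexHull ℝ _ h1 h1' hp hq hpq, ?_⟩
        rw [dot_add_right, dot_smul_right, dot_smul_right, h2, h2', ← add_mul, hpq, one_mul]
      refine convexHull_min ?_ hconv hu
      rintro _ ⟨i, hi, rfl⟩
      refine ⟨t * α i, subset_convexHull ℝ _ ⟨i, rfl⟩, ?_⟩
      show dot (At a r t j₀) (vt v α t i) = _
      rcases Finset.mem_insert.1 hi with rfl | hi
      · exact htight
      · have := gap_eq (v := v) (a := a) (α := α) (r := r) t i j₀
        rw [M.contact i j₀ (mem_contacts.1 hi), mem_contacts.1 hi] at this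
        linarith
    obtain ⟨μ, hμK, hμ⟩ := hq
    have hle := hmax' μ (fun j => M.Kt_subset ht hμK j)
    have hge : σ * (s' + t * β') ≤ σ * μ := by
      have h1 := M.Kt_subset ht hK' j₀
      rw [← hμ] at h1
      simp only [dot_move, At_two] at h1
      linarith
    have heq : μ = s' + t * β' := mul_left_cancel₀ hj₀ (le_antisymm hle hge)
    have hlt' := M.moved_top (t := t) l1' hl'
    rw [he', ← heq, dot_move, dot_move, At_two] at hlt'
    rw [dot_move, dot_move, At_two] at hμ
    refine mem_iUnion₂.2 ⟨l, Finset.mem_filter.2 ⟨Finset.mem_univ _, ?_, hj'⟩, ?_⟩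
    · rintro rfl
      have h0 := hend' 0 (by rw [abs_zero]; exact M.pos.le)
      have h1 := h0.1
      rw [Kt_zero, zero_mul, add_zero] at h1
      have h2 : dot (a l) (∑ i, lam' i • v i) = 1 := by
        rw [dot_sum, ← l1']
        refine Finset.sum_congr rfl fun i _ => ?_
        rw [dot_smul_right]
        by_cases h : lam' i = 0
        · simp [h]
        · rw [hl' i h, mul_one]
      have h3 : ∑ i, lam' i • v i = x + u • e3 + s' • e3 := by
        simpa [vt_zero] using he' 0
      rw [h3, dot_move, dot_move] at h2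
      refine hxR ?_
      show x + ((1 - dot (a l) x) / a l 2) • e3 ∈ convexHull ℝ (range v)
      rw [show (1 - dot (a l) x) / a l 2 = u + s' by
        rw [div_eq_iff (show a l 2 ≠ 0 from hj₀)]; linarith, add_smul, ← add_assoc]
      exact h1
    · have hl2 : a l 2 ≠ 0 := fun e => by rw [e, mul_zero] at hj'; exact lt_irrefl 0 hj'
      show dot _ x = _
      rw [dot_comm, dot_sub_right, dot_smul_right, dot_smul_right, dot_comm x, dot_comm x]
      field_simp
      linear_combination σ * hlt' - a l 2 * hμ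
  by_contra hno
  push Not at hno
  have hnull : volume (interior W ∩ R₀ᶜ) = 0 := by
    refine measure_mono_null hcover ((measure_biUnion_null_iff
      (Finset.countable_toSet _)).2 fun l hl => hyperplane_null ?_)
    obtain ⟨hlj, hlpos⟩ := (Finset.mem_filter.1 hl).2
    have hl2 : a l 2 ≠ 0 := fun e => by rw [e, mul_zero] at hlpos; exact lt_irrefl 0 hlpos
    by_contra hboth
    push Not at hboth
    have hκ : 0 < a l 2 * σ⁻¹ := by
      rw [show a l 2 * σ⁻¹ = σ * a l 2 * (σ⁻¹) ^ 2 by field_simp]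
      exact mul_pos hlpos (by positivity)
    refine hno j₀ l (Ne.symm hlj) _ hκ ?_ ?_
    · have := congrArg (fun y : R3 => a l 2 • y) (sub_eq_zero.1 hboth.1)
      simpa [smul_smul, mul_inv_cancel₀ hl2] using this
    · have := congrArg (fun y : ℝ => a l 2 * y) (sub_eq_zero.1 hboth.2)
      simpa [← mul_assoc, mul_inv_cancel₀ hl2] using this
  exact ((isOpen_interior.inter hR₀c.isOpen_compl).measure_pos volume hUne).ne' hnull

end Motion

/-- Moving the origin inside a body given by points and half-spaces. -/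
lemma dual_shift {m' k' : ℕ} {w : Fin m' → R3} {A : Fin k' → R3} {B : Fin k' → ℝ}
    (hKA : convexHull ℝ (range w) = {x | ∀ j, dot (A j) x ≤ B j}) (hA : ∀ j, A j ≠ 0) {z : R3}
    (hz : z ∈ interior (convexHull ℝ (range w))) :
    Dual (fun i => w i - z) (fun j => (B j - dot (A j) z)⁻¹ • A j) ∧
      convexHull ℝ (range fun i => w i - z) = (fun x => x - z) '' convexHull ℝ (range w) := by
  set K := convexHull ℝ (range w) with hK
  have hpos : ∀ j, 0 < B j - dot (A j) z := fun j =>
    sub_pos.2 (dot_lt_of_interior (fun x hx => (hKA ▸ hx : x ∈ {x | ∀ j, dot (A j) x ≤ B j}) j)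
      (hA j) hz)
  have him : convexHull ℝ (range fun i => w i - z) = (fun x => x - z) '' K := by
    have := convexHull_vadd (𝕜 := ℝ) (-z) (range w)
    rw [← image_vadd, ← image_vadd, ← range_comp] at this
    simpa [Function.comp_def, sub_eq_neg_add, hK] using this
  refine ⟨⟨⟨(finite_range _).isCompact_convexHull ℝ, convex_convexHull ℝ _, ?_⟩, ?_⟩, him⟩
  · rw [him]
    have : Homeomorph.subRight z z ∈ Homeomorph.subRight z '' interior K := ⟨z, hz, rfl⟩
    rw [Homeomorph.image_interior] at this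
    simpa using this
  · rw [him]
    ext x
    simp only [mem_image, mem_ofPred_eq, dot_smul, inv_mul_le_one₀ (hpos _)]
    constructor
    · rintro ⟨y, hy, rfl⟩ j
      rw [hKA] at hy
      rw [dot_sub_right]
      linarith [hy j]
    · intro hx
      refine ⟨x + z, ?_, add_sub_cancel_right x z⟩
      rw [hKA]
      intro j
      rw [dot_add_right]
      linarith [hx j]

/-- A moved body that stops has a smaller description around each interior point. -/
theorem Motion.exists_smaller {T t : ℝ} (M : Motion v a α r T)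
    (hsp : ∀ j, Submodule.span ℝ (v '' (contacts v a j : Set (Fin m))) = ⊤)
    (hne : ¬ ∃ (c : R3) (c₀ : ℝ), ∀ i, α i = dot c (v i) + c₀) (ht : |t| ≤ T)
    {i₀ : Fin m} {j₀ : Fin k} (hj₀ : a j₀ 2 ≠ 0) (hlt : dot (a j₀) (v i₀) < 1)
    (hgap : (1 - dot (a j₀) (v i₀)) + t * rate v a α r i₀ j₀ = 0)
    {z : R3} (hz : z ∈ interior (Kt v α t)) :
    ∃ (m' k' : ℕ) (v' : Fin m' → R3) (a' : Fin k' → R3),
      Dual v' a' ∧ m' + k' < m + k ∧ convexHull ℝ (range v') = (fun x => x - z) '' Kt v α t := by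
  have heq := M.eq_Kt hsp hne ht
  have hA : ∀ j, At a r t j ≠ 0 := fun j h0 => by
    by_cases hj : a j 2 = 0
    · rw [At, M.vert j hj] at h0
      simp at h0
      exact facet_ne_zero hsp j h0
    · exact hj (by rw [← At_two a r t j, h0]; rfl)
  obtain ⟨i, hi⟩ | ⟨j, l, hjl, κ, hκ, hAl, hBl⟩ := M.drop hsp ht hj₀ hlt hgap
  · obtain ⟨n, rfl⟩ : ∃ n, m = n + 1 := ⟨m - 1, by have := i.isLt; omega⟩
    have hhull : convexHull ℝ (range fun q => vt v α t (i.succAbove q)) = Kt v α t := by
      refine (convexHull_mono (range_comp_subset_range i.succAbove (vt v α t))).antisymm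
        (convexHull_min ?_ (convex_convexHull ℝ _))
      rintro _ ⟨q, rfl⟩
      rcases Fin.eq_self_or_eq_succAbove i q with rfl | ⟨q', rfl⟩
      · refine convexHull_mono ?_ hi
        rintro _ ⟨q', hq', rfl⟩
        obtain ⟨q'', rfl⟩ := Fin.exists_succAbove_eq (show q' ≠ q by simpa using hq')
        exact ⟨q'', rfl⟩
      · exact subset_convexHull ℝ _ ⟨q', rfl⟩
    rw [← hhull] at hz heq ⊢
    obtain ⟨hD, hE⟩ := dual_shift heq hA hz
    exact ⟨n, k, _, _, hD, by omega, hE⟩
  · obtain ⟨n, rfl⟩ : ∃ n, k = n + 1 := ⟨k - 1, by have := j.isLt; omega⟩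
    have hset : {x : R3 | ∀ q, dot (At a r t q) x ≤ Bt r t q} =
        {x | ∀ q, dot (At a r t (l.succAbove q)) x ≤ Bt r t (l.succAbove q)} := by
      ext x
      refine ⟨fun hx q => hx _, fun hx q => ?_⟩
      obtain ⟨j', rfl⟩ := Fin.exists_succAbove_eq hjl
      rcases Fin.eq_self_or_eq_succAbove l q with rfl | ⟨q', rfl⟩
      · rw [hAl, hBl, dot_smul]
        exact mul_le_mul_of_nonneg_left (hx j') hκ.le
      · exact hx q'
    obtain ⟨hD, hE⟩ := dual_shift (heq.trans hset) (fun q => hA _) hz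
    exact ⟨m, n, _, _, hD, by omega, hE⟩

/-- A motion ends in two bodies with smaller descriptions. -/
theorem move (h : Dual v a)
    (hsp : ∀ j, Submodule.span ℝ (v '' (contacts v a j : Set (Fin m))) = ⊤)
    (hr : ∀ j, a j 2 ≠ 0 → ∀ i ∈ contacts v a j, dot (r j) (v i) = α i)
    (hne : ¬ ∃ (c : R3) (c₀ : ℝ), ∀ i, α i = dot c (v i) + c₀) :
    ∃ Kr Ks : Set R3, IsCompact Kr ∧ Convex ℝ Kr ∧ (interior Kr).Nonempty ∧
      IsCompact Ks ∧ Convex ℝ Ks ∧ (interior Ks).Nonempty ∧
      Shadow Kr (convexHull ℝ (range v)) Ks ∧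
      2 * volume.real (convexHull ℝ (range v)) = volume.real Kr + volume.real Ks ∧
      (∀ z ∈ interior Kr, ∃ (m' k' : ℕ) (v' : Fin m' → R3) (a' : Fin k' → R3),
        Dual v' a' ∧ m' + k' < m + k ∧ convexHull ℝ (range v') = (fun x => x - z) '' Kr) ∧
      ∀ z ∈ interior Ks, ∃ (m' k' : ℕ) (v' : Fin m' → R3) (a' : Fin k' → R3),
        Dual v' a' ∧ m' + k' < m + k ∧ convexHull ℝ (range v') = (fun x => x - z) '' Ks := by
  obtain ⟨α', r', T, M, hne', htight⟩ := exists_motion h hr hne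
  have hend : ∀ t ∈ ({T, -T} : Set ℝ), ∀ z ∈ interior (Kt v α' t),
      ∃ (m' k' : ℕ) (v' : Fin m' → R3) (a' : Fin k' → R3),
        Dual v' a' ∧ m' + k' < m + k ∧ convexHull ℝ (range v') = (fun x => x - z) '' Kt v α' t := by
    intro t htT z hz
    have ht : |t| ≤ T := by
      rcases htT with rfl | rfl
      · exact (abs_of_pos M.pos).le
      · rw [abs_neg, abs_of_pos M.pos]
    obtain ⟨i₀, j₀, hj₀, hlt, hgap⟩ := htight t htT
    exact M.exists_smaller hsp hne' ht hj₀ hlt hgap hz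
  refine ⟨Kt v α' T, Kt v α' (-T), (finite_range _).isCompact_convexHull ℝ, convex_convexHull ℝ _,
    M.interior_Kt hne', (finite_range _).isCompact_convexHull ℝ, convex_convexHull ℝ _,
    M.interior_Kt hne', ?_, M.volume_sum, hend T (Or.inl rfl), hend (-T) (Or.inr rfl)⟩
  refine convexHull_min ?_ ?_
  · rintro _ ⟨i, rfl⟩
    refine ⟨T * α' i, subset_convexHull ℝ _ ⟨i, rfl⟩, ?_⟩
    rw [sub_eq_add_neg, ← neg_smul, ← neg_mul]
    exact subset_convexHull ℝ _ ⟨i, rfl⟩
  · rintro y ⟨d, h1, h2⟩ z ⟨d', h1', h2'⟩ p q hp hq hpq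
    refine ⟨p * d + q * d', ?_, ?_⟩
    · rw [show p • y + q • z + (p * d + q * d') • e3 =
          p • (y + d • e3) + q • (z + d' • e3) by
        simp only [smul_add, smul_smul, add_smul]; abel]
      exact convex_convexHull ℝ _ h1 h1' hp hq hpq
    · rw [show p • y + q • z - (p * d + q * d') • e3 =
          p • (y - d • e3) + q • (z - d' • e3) by
        simp only [smul_sub, smul_smul, add_smul]; abel]
      exact convex_convexHull ℝ _ h2 h2' hp hq hpq

end Vale.Agent.P248.Three
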