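import Vale.Agent.P248.Three.Fibre

/-!
# P248: facts about a body given by vertices and facets at the same time
-/

open MeasureTheory Set
open scoped Pointwise

namespace Vale.Agent.P248.Three

variable {m k : ℕ} {v : Fin m → R3} {a : Fin k → R3}

lemma dot_zero_right (c : R3) : dot c 0 = 0 := map_zero (dotL c)

/-- A direction that no facet cuts is zero. -/
lemma Dual.eq_zero_of_dir (h : Dual v a) {x : R3} (hx : ∀ j, dot (a j) x ≤ 0) : x = 0 := by
  by_contra hne
  obtain ⟨R, hR⟩ := h.good.cpt.isBounded.exists_norm_le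
  have hn : 0 < ‖x‖ := norm_pos_iff.2 hne
  have hm : ((|R| + 1) / ‖x‖) • x ∈ convexHull ℝ (range v) := by
    rw [h.eq]
    intro j
    rw [dot_smul_right]
    nlinarith [hx j, div_pos (show (0:ℝ) < |R| + 1 by positivity) hn]
  have := hR _ hm
  rw [norm_smul, Real.norm_eq_abs, abs_of_pos (div_pos (by positivity) hn),
    div_mul_cancel₀ _ hn.ne'] at this
  linarith [le_abs_self R]

lemma Dual.facet_mem_polar (h : Dual v a) (j : Fin k) :
    a j ∈ polar (convexHull ℝ (range v)) := fun x hx => by
  show dot x (a j) ≤ 1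
  rw [dot_comm]
  exact h.le_one hx j

theorem Dual.polar_eq {v : Fin m → R3} {a : Fin k → R3} (h : Dual v a) :
    polar (convexHull ℝ (range v)) = convexHull ℝ (range a) := by
  refine Subset.antisymm (fun y hy => ?_)
    (convexHull_min (range_subset_iff.2 h.facet_mem_polar) h.good.good_polar.conv)
  by_contra hne
  obtain ⟨f, u, hfu, huy⟩ := geometric_hahn_banach_closed_point (convex_convexHull ℝ (range a))
    (((finite_range a).isCompact_convexHull ℝ).isClosed) hne
  set x : R3 := fun i => f (Pi.single i 1) with hx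
  have hf : ∀ z, f z = dot x z := fun z => linear_eq_dot f.toLinearMap z
  have ha : ∀ j, dot (a j) x < u := fun j => by
    rw [dot_comm, ← hf]
    exact hfu _ (subset_convexHull ℝ _ ⟨j, rfl⟩)
  rw [hf] at huy
  rcases le_or_gt u 0 with hu | hu
  · have hx0 := h.eq_zero_of_dir (x := x) fun j => (ha j).le.trans hu
    rw [hx0] at huy ha
    have : (e3 : R3) = 0 := h.eq_zero_of_dir fun j => by
      have := ha j
      rw [dot_zero_right] at this
      simp [dot] at huy
      linarith
    simpa [e3] using congrFun this 2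
  · have hm : u⁻¹ • x ∈ convexHull ℝ (range v) := by
      rw [h.eq]
      intro j
      rw [dot_smul_right, inv_mul_le_one₀ hu]
      exact (ha j).le
    have h1 : dot (u⁻¹ • x) y ≤ 1 := hy _ hm
    rw [dot_smul, inv_mul_le_one₀ hu] at h1
    linarith

theorem Dual.symm {v : Fin m → R3} {a : Fin k → R3} (h : Dual v a) : Dual a v where
  good := h.polar_eq ▸ h.good.good_polar
  eq := by
    rw [← h.polar_eq]
    ext y
    refine ⟨fun hy i => hy (v i) (subset_convexHull ℝ _ ⟨i, rfl⟩), fun hy x hx => ?_⟩
    show dot x y ≤ 1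
    rw [dot_comm]
    refine convexHull_subset_le (S := range v) ?_ hx
    rintro _ ⟨i, rfl⟩
    rw [dot_comm]
    exact hy i

/-- A point that is a combination of a list without being all of itself is in the hull of the
others. -/
lemma mem_hull_others {w : Fin m → R3} {ν : Fin m → ℝ} (h0 : ∀ i, 0 ≤ ν i) (h1 : ∑ i, ν i = 1)
    {i : Fin m} (hi : ∑ l, ν l • w l = w i) (hlt : ν i < 1) :
    w i ∈ convexHull ℝ (w '' {i}ᶜ) := by
  have hs : ∑ l ∈ Finset.univ.erase i, ν l = 1 - ν i := by
    rw [← h1, ← Finset.add_sum_erase _ _ (Finset.mem_univ i)]; ring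
  have e : (1 - ν i) • w i = ∑ l ∈ Finset.univ.erase i, ν l • w l := by
    rw [← Finset.add_sum_erase _ _ (Finset.mem_univ i)] at hi
    rw [sub_smul, one_smul, sub_eq_iff_eq_add']
    exact hi.symm
  have := (convex_convexHull ℝ (w '' {i}ᶜ)).sum_mem (t := Finset.univ.erase i)
    (w := fun l => (1 - ν i)⁻¹ * ν l) (z := w)
    (fun l _ => mul_nonneg (inv_nonneg.2 (by linarith)) (h0 l))
    (by rw [← Finset.mul_sum, hs, inv_mul_cancel₀ (by linarith)])
    (fun l hl => subset_convexHull ℝ _ ⟨l, Finset.ne_of_mem_erase hl, rfl⟩)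
  simp only [mul_smul] at this
  rwa [← Finset.smul_sum, ← e, smul_smul, inv_mul_cancel₀ (by linarith), one_smul] at this

lemma Irred.ne {w : Fin m → R3} (hw : Irred w) {i l : Fin m} (hil : i ≠ l) : w i ≠ w l :=
  fun e => hw i (subset_convexHull ℝ _ ⟨l, hil.symm, e.symm⟩)

/-- The contacts of a facet span space. -/
theorem Dual.span_contacts {v : Fin m → R3} {a : Fin k → R3} (h : Dual v a) (ha : Irred a)
    (j : Fin k) : Submodule.span ℝ (v '' (contacts v a j : Set (Fin m))) = ⊤ := by
  by_contra hne
  obtain ⟨f, hf, hker⟩ := Submodule.exists_le_ker_of_lt_top _ (lt_top_iff_ne_top.2 hne)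
  set y : R3 := fun i => f (Pi.single i 1) with hy
  have hfy : ∀ z, f z = dot y z := linear_eq_dot f
  have hy0 : y ≠ 0 := fun h0 => hf (LinearMap.ext fun z => by
    rw [hfy, h0]; simp [dot])
  have hcon : ∀ i, dot (a j) (v i) = 1 → dot y (v i) = 0 := fun i hi => by
    rw [← hfy]
    exact hker (Submodule.subset_span ⟨i, by simpa using mem_contacts.2 hi, rfl⟩)
  -- small motions of the facet stay in the polar
  obtain ⟨t, ht, hsmall⟩ : ∃ t : ℝ, 0 < t ∧ ∀ i, dot (a j) (v i) < 1 →
      t * |dot y (v i)| ≤ 1 - dot (a j) (v i) := by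
    classical
    set S := Finset.univ.filter fun i => dot (a j) (v i) < 1
    rcases S.eq_empty_or_nonempty with hS | hS
    · exact ⟨1, one_pos, fun i hi => absurd (Finset.mem_filter.2 ⟨Finset.mem_univ i, hi⟩)
        (show i ∉ S by simp [hS])⟩
    obtain ⟨l, hl, hmin⟩ := S.exists_min_image
      (fun i => (1 - dot (a j) (v i)) / (|dot y (v i)| + 1)) hS
    refine ⟨(1 - dot (a j) (v l)) / (|dot y (v l)| + 1),
      div_pos (sub_pos.2 (Finset.mem_filter.1 hl).2) (by positivity), fun i hi => ?_⟩
    have h1 := hmin i (Finset.mem_filter.2 ⟨Finset.mem_univ i, hi⟩)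
    rw [le_div_iff₀ (by positivity)] at h1
    refine le_trans ?_ h1
    exact mul_le_mul_of_nonneg_left (le_add_of_nonneg_right zero_le_one)
      (div_nonneg (sub_nonneg.2 (h.le_one' l j)) (by positivity))
  have hmem : ∀ s : ℝ, |s| = 1 → a j + (s * t) • y ∈ convexHull ℝ (range a) := by
    intro s hs
    rw [h.symm.eq]
    intro i
    rw [dot_comm, dot_add, dot_smul]
    rcases (h.le_one' i j).eq_or_lt with e | e
    · rw [e, hcon i e]; simp
    · have h1 : s * t * dot y (v i) ≤ t * |dot y (v i)| := by
        refine (le_abs_self _).trans (le_of_eq ?_)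
        rw [abs_mul, abs_mul, hs, abs_of_pos ht, one_mul]
      linarith [hsmall i e]
  obtain ⟨p, p0, p1, hp⟩ := mem_hull_iff.1 (hmem 1 abs_one)
  obtain ⟨q, q0, q1, hq⟩ := mem_hull_iff.1 (hmem (-1) (by simp))
  have hpj : p j ≤ 1 := p1 ▸ Finset.single_le_sum (fun l _ => p0 l) (Finset.mem_univ j)
  have hqj : q j ≤ 1 := q1 ▸ Finset.single_le_sum (fun l _ => q0 l) (Finset.mem_univ j)
  by_cases hlt : (p j + q j) / 2 < 1
  · refine ha j (mem_hull_others (ν := fun l => (p l + q l) / 2)
      (fun l => by have := p0 l; have := q0 l; positivity) ?_ ?_ hlt)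
    · rw [← Finset.sum_div, Finset.sum_add_distrib, p1, q1]; norm_num
    · calc ∑ l, ((p l + q l) / 2) • a l = (1 / 2 : ℝ) • (∑ l, p l • a l + ∑ l, q l • a l) := by
            rw [← Finset.sum_add_distrib, Finset.smul_sum]
            refine Finset.sum_congr rfl fun l _ => ?_
            rw [← add_smul, smul_smul]
            congr 1; ring
        _ = a j := by
            rw [hp, hq]
            funext i
            simp only [Pi.smul_apply, Pi.add_apply, smul_eq_mul]; ring
  · have h1 : p j = 1 := by linarith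
    have h2 : ∀ l, l ≠ j → p l = 0 := by
      intro l hl
      have := Finset.add_sum_erase Finset.univ p (Finset.mem_univ j)
      rw [p1, h1] at this
      exact (Finset.sum_eq_zero_iff_of_nonneg fun l _ => p0 l).1 (by linarith) l
        (Finset.mem_erase.2 ⟨hl, Finset.mem_univ l⟩)
    rw [Finset.sum_eq_single j (fun l _ hl => by rw [h2 l hl, zero_smul])
      (fun hj => absurd (Finset.mem_univ j) hj), h1, one_smul, one_mul, left_eq_add] at hp
    exact hy0 ((smul_eq_zero.1 hp).resolve_left ht.ne')

theorem Dual.four_le {v : Fin m → R3} {a : Fin k → R3} (h : Dual v a) : 4 ≤ m := by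
  by_contra hm
  have hne : (interior (convexHull ℝ (range v))).Nonempty := ⟨0, h.good.int⟩
  have htop := interior_convexHull_nonempty_iff_affineSpan_eq_top.1 hne
  have hvs : vectorSpan ℝ (range v) = ⊤ := by
    rw [← direction_affineSpan, htop, AffineSubspace.direction_top]
  rcases m with _ | m
  · have := h.good.zero_mem
    simp [range_eq_empty] at this
  have h1 := finrank_vectorSpan_range_le ℝ v (n := m) (Fintype.card_fin _)
  rw [hvs, finrank_top, Module.finrank_fin_fun] at h1
  omega

end Vale.Agent.P248.Three
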