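import Vale.Agent.P248.General
import Vale.Agent.P248.Three.Fibre

/-!
# P248: the volume product of a tetrahedron
-/

open MeasureTheory Set
open scoped Pointwise Matrix Nat

namespace Vale.Agent.P248.Three

lemma no_common_zero {v : Fin 4 → R3} (h : Good (convexHull ℝ (range v))) (i : Fin 4) {c : R3}
    (hc : c ≠ 0) : ¬ ∀ q : Fin 3, dot c (v (i.succAbove q)) = 0 := by
  intro hz
  have key : ∀ d : R3, d ≠ 0 → (∀ q : Fin 3, dot d (v (i.succAbove q)) = 0) →
      dot d (v i) ≤ 0 → False := fun d hd hd0 hle => by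
    have hsub : convexHull ℝ (range v) ⊆ {x | dot d x ≤ 0} := convexHull_subset_le (by
      rintro _ ⟨l, rfl⟩
      rcases Fin.eq_self_or_eq_succAbove i l with rfl | ⟨q, rfl⟩
      · exact hle
      · exact (hd0 q).le)
    have := dot_lt_of_interior hsub hd h.int
    simp [dot] at this
  rcases le_total (dot c (v i)) 0 with hle | hle
  · exact key c hc hz hle
  · refine key ((-1 : ℝ) • c) (by simpa using hc) (fun q => by rw [dot_smul, hz q, mul_zero]) ?_
    rw [dot_smul]; linarith

theorem tetra_formula (v : Fin 4 → R3) (h : Good (convexHull ℝ (range v))) {μ : Fin 4 → ℝ}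
    (μ0 : ∀ i, 0 ≤ μ i) (μ1 : ∑ i, μ i = 1) (μv : ∑ i, μ i • v i = 0) :
    (∀ i, 0 < μ i) ∧
      prod0 (convexHull ℝ (range v)) = 1 / (36 * (μ 0 * μ 1 * μ 2 * μ 3)) := by
  set Mi : Fin 4 → Matrix (Fin 3) (Fin 3) ℝ :=
    fun i => Matrix.of fun q l => v (i.succAbove q) l with hMi
  have hdet : ∀ i, (Mi i).det ≠ 0 := fun i h0 => by
    obtain ⟨w, hw, hw0⟩ := Matrix.exists_mulVec_eq_zero_iff.2 h0
    exact no_common_zero h i hw fun q => (dot_comm _ _).trans (congrFun hw0 q)
  have hμ : ∀ i, 0 < μ i := by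
    intro i
    refine (μ0 i).lt_of_ne fun h0 => hdet i ?_
    refine Matrix.exists_vecMul_eq_zero_iff.1 ⟨fun q => μ (i.succAbove q), fun he => ?_, ?_⟩
    · rw [Fin.sum_univ_succAbove μ i, ← h0] at μ1
      simp [fun q => congrFun he q] at μ1
    · funext l
      have := congrFun μv l
      rw [Finset.sum_apply, Fin.sum_univ_succAbove _ i] at this
      simpa [hMi, ← h0, Matrix.vecMul, dotProduct] using this
  set M := Mi 0 with hM
  set D : Matrix (Fin 3) (Fin 3) ℝ := Matrix.diagonal fun q => μ q.succ with hD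
  set A : Matrix (Fin 3) (Fin 3) ℝ := Matrix.of fun q l => v q.succ l - v 0 l with hA
  set S := {x : R3 | (∀ i, 0 ≤ x i) ∧ ∑ i, x i ≤ 1} with hS
  have hS6 : volume.real S = 1 / 6 := by
    rw [hS, vol_corner]; norm_num [Nat.factorial]
  have hμ0 := hμ 0
  have hsum : μ 0 + ∑ q : Fin 3, μ q.succ = 1 := by rw [← Fin.sum_univ_succ]; exact μ1
  have hAM : A = (1 + Matrix.replicateCol Unit (fun _ : Fin 3 => (1 : ℝ)) *
      Matrix.replicateRow Unit (fun q : Fin 3 => μ q.succ / μ 0)) * M := by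
    ext q l
    have := congrFun μv l
    rw [Finset.sum_apply, Fin.sum_univ_succ] at this
    simp only [Pi.smul_apply, smul_eq_mul, Pi.zero_apply] at this
    simp only [hA, hM, hMi, Matrix.add_apply, Matrix.of_apply,
      Matrix.mul_apply, Matrix.replicateCol_apply, Matrix.replicateRow_apply,
      Fin.succAbove_zero, Finset.univ_unique, Finset.sum_singleton, one_mul]
    have e : ∑ x : Fin 3, μ x.succ / μ 0 * v x.succ l = -v 0 l := by
      rw [eq_neg_iff_add_eq_zero]
      simp only [div_mul_eq_mul_div, ← Finset.sum_div]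
      field_simp
      linarith
    simp only [add_mul, Finset.sum_add_distrib, Matrix.one_apply, ite_mul, one_mul, zero_mul,
      Finset.sum_ite_eq, Finset.mem_univ, if_true, e]
    ring
  have hdA : A.det = M.det / μ 0 := by
    rw [hAM, Matrix.det_mul, Matrix.det_one_add_replicateCol_mul_replicateRow]
    simp only [dotProduct, ← Finset.sum_div, mul_one]
    field_simp
    linear_combination M.det * hsum
  have hK : convexHull ℝ (range v) = (fun y => v 0 + y) '' (Matrix.toLin' Aᵀ '' S) := by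
    ext x
    rw [image_image, mem_hull_iff]
    constructor
    · rintro ⟨l, l0, l1, rfl⟩
      rw [Fin.sum_univ_succ] at l1
      refine ⟨fun q => l q.succ, ⟨fun q => l0 _, by linarith [l0 0]⟩, ?_⟩
      funext p
      simp only [Matrix.toLin'_apply, Matrix.mulVec, dotProduct, Matrix.transpose_apply, hA,
        Matrix.of_apply, Pi.add_apply, Finset.sum_apply, Pi.smul_apply, smul_eq_mul,
        sub_mul, Finset.sum_sub_distrib, Fin.sum_univ_succ (f := fun i => l i * v i p),
        ← Finset.mul_sum]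
      simp only [mul_comm (v (Fin.succ _) p)]
      linear_combination (-v 0 p) * l1
    · rintro ⟨y, ⟨y0, y1⟩, rfl⟩
      refine ⟨Fin.cons (1 - ∑ q, y q) y, fun i => ?_, by simp [Fin.sum_univ_succ], ?_⟩
      · induction i using Fin.cases with
        | zero => simpa using y1
        | succ q => simpa using y0 q
      funext p
      simp only [Matrix.toLin'_apply, Matrix.mulVec, dotProduct, Matrix.transpose_apply, hA,
        Matrix.of_apply, Pi.add_apply, Finset.sum_apply, Pi.smul_apply, smul_eq_mul,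
        sub_mul, Finset.sum_sub_distrib, Fin.sum_univ_succ (n := 3), Fin.cons_zero, Fin.cons_succ,
        ← Finset.mul_sum]
      simp only [mul_comm (v (Fin.succ _) p)]
      ring
  have hP : polar (convexHull ℝ (range v)) = Matrix.toLin' ((-1 : ℝ) • (D * M)) ⁻¹'
      ((fun w => (fun q => μ q.succ) + w) ⁻¹' S) := by
    ext y
    have hy : y ∈ polar (convexHull ℝ (range v)) ↔ ∀ i, dot (v i) y ≤ 1 := by
      refine ⟨fun hy i => hy _ (subset_convexHull ℝ _ ⟨i, rfl⟩), fun hy x hx => ?_⟩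
      have := convexHull_subset_le (S := range v) (c := y) (γ := 1)
        (by rintro _ ⟨i, rfl⟩; rw [dot_comm]; exact hy i) hx
      exact (dot_comm x y).trans_le this
    have hw : ∀ q : Fin 3, μ q.succ + (((-1 : ℝ) • (D * M)) *ᵥ y) q =
        μ q.succ * (1 - dot (v q.succ) y) := fun q => by
      rw [Matrix.smul_mulVec, Pi.smul_apply, ← Matrix.mulVec_mulVec, hD, Matrix.mulVec_diagonal]
      simp only [hM, hMi, Fin.succAbove_zero, Matrix.mulVec, dotProduct, Matrix.of_apply, dot,
        smul_eq_mul]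
      ring
    have h0 : μ 0 * dot (v 0) y + ∑ q : Fin 3, μ q.succ * dot (v q.succ) y = 0 := by
      rw [← Fin.sum_univ_succ (f := fun i => μ i * dot (v i) y),
        show ∑ i, μ i * dot (v i) y = dot y (∑ i, μ i • v i) by
          rw [dot_sum]
          exact Finset.sum_congr rfl fun i _ => by rw [dot_smul_right, dot_comm],
        μv]
      simp [dot]
    simp only [hy, mem_preimage, hS, mem_ofPred_eq, Matrix.toLin'_apply, Pi.add_apply, hw,
      mul_nonneg_iff_of_pos_left (hμ _), sub_nonneg, Fin.forall_fin_succ (n := 3)]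
    simp only [mul_sub, mul_one, Finset.sum_sub_distrib]
    rw [and_comm]
    refine and_congr_right fun _ => ⟨fun h1 => by nlinarith, fun h1 => ?_⟩
    by_contra hgt
    push Not at hgt
    nlinarith
  have hvK : volume.real (convexHull ℝ (range v)) = |M.det| / μ 0 * (1 / 6) := by
    rw [hK, image_add_left, measureReal_def, measure_preimage_add, Measure.addHaar_image_linearMap,
      ENNReal.toReal_mul, ENNReal.toReal_ofReal (abs_nonneg _), LinearMap.det_toLin',
      Matrix.det_transpose, hdA, abs_div, abs_of_pos hμ0, ← measureReal_def, hS6]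
  have hdB : ((-1 : ℝ) • (D * M)).det = -(μ 1 * μ 2 * μ 3 * M.det) := by
    rw [Matrix.det_smul, Matrix.det_mul, hD, Matrix.det_diagonal, Fin.prod_univ_three]
    simp [Fintype.card_fin]
    ring
  have hpos : 0 < μ 1 * μ 2 * μ 3 := mul_pos (mul_pos (hμ 1) (hμ 2)) (hμ 3)
  have hMdet := hdet 0
  have hvP : volume.real (polar (convexHull ℝ (range v))) =
      1 / (μ 1 * μ 2 * μ 3 * |M.det|) * (1 / 6) := by
    rw [hP, measureReal_def, Measure.addHaar_preimage_linearMap _ (by
        rw [LinearMap.det_toLin', hdB]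
        exact neg_ne_zero.2 (mul_ne_zero hpos.ne' hMdet)),
      LinearMap.det_toLin', hdB, measure_preimage_add, ENNReal.toReal_mul,
      ENNReal.toReal_ofReal (abs_nonneg _), abs_inv, abs_neg, abs_mul, abs_of_pos hpos,
      ← measureReal_def, hS6]
    ring
  rw [prod0, hvK, hvP]
  have hne : (0 : ℝ) < |M.det| := abs_pos.2 hMdet
  have e : |M.det| / μ 0 * (1 / 6) * (1 / (μ 1 * μ 2 * μ 3 * |M.det|) * (1 / 6)) =
      1 / (36 * (μ 0 * μ 1 * μ 2 * μ 3)) := by field_simp; ring
  exact ⟨hμ, e⟩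

theorem tetra_bound (v : Fin 4 → R3) (h : Good (convexHull ℝ (range v))) :
    64 / 9 ≤ prod0 (convexHull ℝ (range v)) := by
  obtain ⟨μ, μ0, μ1, μv⟩ := mem_hull_iff.1 h.zero_mem
  obtain ⟨hμ, e⟩ := tetra_formula v h μ0 μ1 μv
  have hμ0 := hμ 0
  rw [e, le_div_iff₀ (mul_pos (by norm_num) (mul_pos (mul_pos (mul_pos hμ0 (hμ 1)) (hμ 2)) (hμ 3)))]
  have hs4 : μ 0 + μ 1 + μ 2 + μ 3 = 1 := by rw [← μ1, Fin.sum_univ_four]
  have p1 : μ 0 * μ 1 ≤ ((μ 0 + μ 1) / 2) ^ 2 := by nlinarith [sq_nonneg (μ 0 - μ 1)]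
  have p2 : μ 2 * μ 3 ≤ ((μ 2 + μ 3) / 2) ^ 2 := by nlinarith [sq_nonneg (μ 2 - μ 3)]
  have p3 := mul_le_mul p1 p2 (mul_pos (hμ 2) (hμ 3)).le (sq_nonneg _)
  have p4 : (μ 0 + μ 1) * (μ 2 + μ 3) ≤ 1 / 4 := by nlinarith [sq_nonneg (μ 0 + μ 1 - μ 2 - μ 3)]
  have p5 := pow_le_pow_left₀ (mul_nonneg (add_nonneg hμ0.le (hμ 1).le)
    (add_nonneg (hμ 2).le (hμ 3).le)) p4 2
  linarith

end Vale.Agent.P248.Three
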