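import Vale.Agent.P248.Turn
import Vale.Agent.P248.Three.Move
import Vale.Agent.P248.Three.Pairs
import Vale.Agent.P248.Three.Incidence
import Vale.Agent.P248.Three.Centres
import Vale.Agent.P248.Three.Tetra
import Vale.Agent.P248.Three.Approx

/-!
# P248: the general Mahler inequality in space
-/

open MeasureTheory Set
open scoped Pointwise

namespace Vale.Agent.P248.Three

variable {m k : ℕ}

lemma prod0_pos {K : Set R3} (hK : Good K) : 0 < prod0 K :=
  mul_pos (ENNReal.toReal_pos (Measure.measure_pos_of_mem_nhds volume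
      (mem_interior_iff_mem_nhds.1 hK.int)).ne' hK.cpt.measure_lt_top.ne)
    (ENNReal.toReal_pos (Measure.measure_pos_of_mem_nhds volume
      (mem_interior_iff_mem_nhds.1 hK.good_polar.int)).ne' hK.good_polar.cpt.measure_lt_top.ne)

lemma Dual.drop_vertex {n : ℕ} {v : Fin (n + 1) → R3} {a : Fin k → R3} (h : Dual v a)
    {i : Fin (n + 1)} (hi : v i ∈ convexHull ℝ (v '' {i}ᶜ)) :
    Dual (fun q => v (i.succAbove q)) a ∧
      convexHull ℝ (range fun q => v (i.succAbove q)) = convexHull ℝ (range v) := by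
  have e : convexHull ℝ (range fun q => v (i.succAbove q)) = convexHull ℝ (range v) := by
    refine (convexHull_mono (range_comp_subset_range i.succAbove v)).antisymm
      (convexHull_min ?_ (convex_convexHull ℝ _))
    rintro _ ⟨q, rfl⟩
    rcases Fin.eq_self_or_eq_succAbove i q with rfl | ⟨q', rfl⟩
    · refine convexHull_mono ?_ hi
      rintro _ ⟨q', hq', rfl⟩
      obtain ⟨q'', rfl⟩ := Fin.exists_succAbove_eq (show q' ≠ q by simpa using hq')
      exact ⟨q'', rfl⟩
    · exact subset_convexHull ℝ _ ⟨q', rfl⟩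
  refine ⟨⟨?_, ?_⟩, e⟩
  · rw [e]; exact h.good
  · rw [e]; exact h.eq

lemma Dual.drop_facet {n : ℕ} {v : Fin m → R3} {a : Fin (n + 1) → R3} (h : Dual v a)
    {j : Fin (n + 1)} (hj : a j ∈ convexHull ℝ (a '' {j}ᶜ)) :
    Dual v fun q => a (j.succAbove q) := by
  refine ⟨h.good, ?_⟩
  rw [h.eq]
  ext x
  refine ⟨fun hx q => hx _, fun hx q => ?_⟩
  rcases Fin.eq_self_or_eq_succAbove j q with rfl | ⟨q', rfl⟩
  · have hs : convexHull ℝ (a '' {q}ᶜ) ⊆ {y | dot x y ≤ 1} := by
      refine convexHull_subset_le ?_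
      rintro _ ⟨l, hl, rfl⟩
      obtain ⟨l', rfl⟩ := Fin.exists_succAbove_eq (show l ≠ q by simpa using hl)
      rw [dot_comm]
      exact hx l'
    have := hs hj
    rwa [mem_ofPred_eq, dot_comm] at this
  · exact hx q'

/-- The facets after a linear change of coordinates. -/
noncomputable def mapFacet (T : R3 ≃ₗ[ℝ] R3) (a : Fin k → R3) (j : Fin k) : R3 :=
  fun i => dot (a j) (T.symm (Pi.single i 1))

lemma dot_mapFacet (T : R3 ≃ₗ[ℝ] R3) (a : Fin k → R3) (j : Fin k) (x : R3) :
    dot (mapFacet T a j) (T x) = dot (a j) x := by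
  have := linear_eq_dot ((dotL (a j)).comp (T.symm : R3 →ₗ[ℝ] R3)) (T x)
  simp only [LinearMap.coe_comp, Function.comp_apply, LinearEquiv.coe_coe, dotL_apply,
    LinearEquiv.symm_apply_apply] at this
  exact this.symm

lemma hull_map (T : R3 ≃ₗ[ℝ] R3) (v : Fin m → R3) :
    convexHull ℝ (range fun i => T (v i)) = T '' convexHull ℝ (range v) := by
  rw [show (range fun i => T (v i)) = (T : R3 →ₗ[ℝ] R3) '' range v by rw [← range_comp]; rfl,
    ← LinearMap.image_convexHull]
  rfl

lemma Dual.map {v : Fin m → R3} {a : Fin k → R3} (h : Dual v a) (T : R3 ≃ₗ[ℝ] R3) :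
    Dual (fun i => T (v i)) (mapFacet T a) := by
  refine ⟨?_, ?_⟩
  · rw [hull_map]; exact h.good.image T
  · rw [hull_map, h.eq]
    ext x
    constructor
    · rintro ⟨y, hy, rfl⟩ j
      rw [dot_mapFacet]; exact hy j
    · intro hx
      refine ⟨T.symm x, fun j => ?_, T.apply_symm_apply x⟩
      rw [← dot_mapFacet T, T.apply_symm_apply]; exact hx j

lemma Irred.map {v : Fin m → R3} (h : Irred v) (T : R3 ≃ₗ[ℝ] R3) :
    Irred fun i => T (v i) := by
  intro i hi
  refine h i ?_
  rw [show (fun i => T (v i)) '' {i}ᶜ = (T : R3 →ₗ[ℝ] R3) '' (v '' {i}ᶜ) by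
    rw [image_image]; rfl, ← LinearMap.image_convexHull] at hi
  obtain ⟨y, hy, e⟩ := hi
  rwa [T.injective e] at hy

lemma contacts_map (T : R3 ≃ₗ[ℝ] R3) (v : Fin m → R3) (a : Fin k → R3) (j : Fin k) :
    contacts (fun i => T (v i)) (mapFacet T a) j = contacts v a j := by
  ext i
  rw [mem_contacts, mem_contacts, dot_mapFacet]

lemma Irred.mapFacet {a : Fin k → R3} (ha : Irred a) (T : R3 ≃ₗ[ℝ] R3) :
    Irred (Three.mapFacet T a) := by
  intro j hj
  refine ha j ?_
  let F : R3 →ₗ[ℝ] R3 :=
    { toFun := fun c i => dot c (T.symm (Pi.single i 1))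
      map_add' := fun c d => funext fun i => by simp [dot_add]
      map_smul' := fun s c => funext fun i => by simp [dot_smul] }
  have hF : Function.Injective F := by
    intro c d hcd
    funext i
    have hc := linear_eq_dot ((dotL c).comp (T.symm : R3 →ₗ[ℝ] R3)) (T (Pi.single i 1))
    have hd := linear_eq_dot ((dotL d).comp (T.symm : R3 →ₗ[ℝ] R3)) (T (Pi.single i 1))
    have e : dot c (Pi.single i 1) = dot d (Pi.single i 1) := by
      have e' : dot (F c) (T (Pi.single i 1)) = dot (F d) (T (Pi.single i 1)) := by rw [hcd]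
      simpa [F] using (hc.trans e').trans hd.symm
    simpa [dot, Pi.single_apply] using e
  rw [show Three.mapFacet T a '' {j}ᶜ = F '' (a '' {j}ᶜ) by rw [image_image]; rfl,
    ← LinearMap.image_convexHull] at hj
  obtain ⟨y, hy, e⟩ := hj
  rwa [hF (show F y = F (a j) from e)] at hy

lemma exists_flatten (c : R3) : ∃ T : R3 ≃ₗ[ℝ] R3, dot c (T.symm (Pi.single 2 1)) = 0 := by
  by_cases h2 : c 2 = 0
  · exact ⟨LinearEquiv.refl ℝ R3, by simp [dot, Pi.single_apply, h2]⟩
  let L : R3 →ₗ[ℝ] R3 :=
    { toFun := fun x => ![dot c x, x 1, x 0]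
      map_add' := fun x y => by
        funext i; fin_cases i <;> simp [dot_add_right]
      map_smul' := fun s x => by
        funext i; fin_cases i <;> simp [dot_smul_right] }
  have hL : Function.Injective L := by
    intro x y hxy
    have e0 := congrFun hxy 0
    have e1 := congrFun hxy 1
    have e2 := congrFun hxy 2
    simp [L] at e0 e1 e2
    have e3 : x 2 = y 2 := by
      simp only [dot, Fin.sum_univ_three, e1, e2] at e0
      exact mul_left_cancel₀ h2 (by linarith)
    funext i
    fin_cases i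
    · exact e2
    · exact e1
    · exact e3
  refine ⟨LinearEquiv.ofInjectiveEndo L hL, ?_⟩
  set w := (LinearEquiv.ofInjectiveEndo L hL).symm (Pi.single 2 1)
  have : L w = Pi.single 2 1 := (LinearEquiv.ofInjectiveEndo L hL).apply_symm_apply _
  simpa [L] using congrFun this 0

/-- The product decreases along a motion. -/
lemma step {v : Fin m → R3} {a : Fin k → R3} (h : Dual v a) (hv : Irred v) (ha : Irred a)
    (hmk : m ≤ k)
    (hcase : (∃ j, a j 2 = 0 ∧ 4 ≤ (contacts v a j).card) ∨
      (5 ≤ m ∧ ∀ j, (contacts v a j).card = 3))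
    (ih : ∀ (m' k' : ℕ) (v' : Fin m' → R3) (a' : Fin k' → R3), Dual v' a' → m' + k' < m + k →
      64 / 9 ≤ prod0 (convexHull ℝ (range v'))) :
    64 / 9 ≤ prod0 (convexHull ℝ (range v)) := by
  obtain ⟨α, r, hr, hne⟩ := exists_speed h hv ha hmk hcase
  obtain ⟨Kr, Ks, hrk, hrc, hri, hsk, hsc, hsi, hsh, hvol, hendr, hends⟩ :=
    move h (fun j => h.span_contacts ha j) hr hne
  obtain ⟨zr, hzr, zs, hzs, hpol⟩ := shadow_centres hrk hrc hri h.good hsk hsc hsi hsh
  obtain ⟨mr, kr, vr, ar, hDr, hlr, her⟩ := hendr zr hzr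
  obtain ⟨ms, ks, vs, as, hDs, hls, hes⟩ := hends zs hzs
  have hbr := ih _ _ _ _ hDr hlr
  have hbs := ih _ _ _ _ hDs hls
  have hgr := hDr.good
  have hgs := hDs.good
  rw [her] at hbr hgr
  rw [hes] at hbs hgs
  have hv' : ∀ (w : R3) (A : Set R3), volume.real ((fun x => x - w) '' A) = volume.real A :=
    fun w A => by
      simp only [sub_eq_add_neg, image_add_right, measureReal_def, measure_preimage_add_right]
  rw [prod0, hv'] at hbr hbs
  set Pr := volume.real (polar ((fun x => x - zr) '' Kr))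
  set Ps := volume.real (polar ((fun x => x - zs) '' Ks))
  set P := volume.real (polar (convexHull ℝ (range v)))
  have hP : 0 < P := ENNReal.toReal_pos (Measure.measure_pos_of_mem_nhds volume
    (mem_interior_iff_mem_nhds.1 h.good.good_polar.int)).ne' h.good.good_polar.cpt.measure_lt_top.ne
  have hPr : 0 < Pr := pos_of_mul_pos_right (lt_of_lt_of_le (by norm_num) hbr) measureReal_nonneg
  have hPs : 0 < Ps := pos_of_mul_pos_right (lt_of_lt_of_le (by norm_num) hbs) measureReal_nonneg
  have h1 : 64 / 9 * Pr⁻¹ ≤ volume.real Kr := by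
    rw [← div_eq_mul_inv, div_le_iff₀ hPr]; exact hbr
  have h2 : 64 / 9 * Ps⁻¹ ≤ volume.real Ks := by
    rw [← div_eq_mul_inv, div_le_iff₀ hPs]; exact hbs
  have h3 : 64 / 9 * P⁻¹ ≤ volume.real (convexHull ℝ (range v)) := by
    linarith [mul_le_mul_of_nonneg_left hpol (show (0:ℝ) ≤ 64 / 9 by norm_num)]
  rw [← div_eq_mul_inv, div_le_iff₀ hP] at h3
  exact h3

/-- Every body given by finitely many points and half-spaces. -/
theorem bound_pairs : ∀ (N m k : ℕ) (v : Fin m → R3) (a : Fin k → R3), Dual v a → m + k = N →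
    64 / 9 ≤ prod0 (convexHull ℝ (range v)) := by
  intro N
  induction N using Nat.strong_induction_on with
  | _ N ih =>
  intro m k v a h hN
  have ih' : ∀ (m' k' : ℕ) (v' : Fin m' → R3) (a' : Fin k' → R3), Dual v' a' → m' + k' < N →
      64 / 9 ≤ prod0 (convexHull ℝ (range v')) :=
    fun m' k' v' a' h' hlt => ih _ hlt m' k' v' a' h' rfl
  by_cases hv : Irred v
  swap
  · simp only [Irred, not_forall, not_not] at hv
    obtain ⟨i, hi⟩ := hv
    obtain ⟨n, rfl⟩ : ∃ n, m = n + 1 := ⟨m - 1, by have := i.isLt; omega⟩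
    obtain ⟨hD, he⟩ := h.drop_vertex hi
    have := ih' _ _ _ _ hD (by omega)
    rwa [he] at this
  by_cases ha : Irred a
  swap
  · simp only [Irred, not_forall, not_not] at ha
    obtain ⟨j, hj⟩ := ha
    obtain ⟨n, rfl⟩ : ∃ n, k = n + 1 := ⟨k - 1, by have := j.isLt; omega⟩
    exact ih' _ _ _ _ (h.drop_facet hj) (by omega)
  have main : ∀ {m k : ℕ} (v : Fin m → R3) (a : Fin k → R3), Dual v a → Irred v → Irred a →
      m ≤ k → m + k = N → 64 / 9 ≤ prod0 (convexHull ℝ (range v)) := by
    intro m k v a h hv ha hmk hN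
    rcases h.four_le.eq_or_lt with h4 | h5
    · subst h4
      exact tetra_bound v h.good
    have ih' : ∀ (m' k' : ℕ) (v' : Fin m' → R3) (a' : Fin k' → R3), Dual v' a' →
        m' + k' < m + k → 64 / 9 ≤ prod0 (convexHull ℝ (range v')) :=
      fun m' k' v' a' h' hlt => ih _ (hN ▸ hlt) m' k' v' a' h' rfl
    by_cases hbig : ∃ j, 4 ≤ (contacts v a j).card
    · obtain ⟨j, hj⟩ := hbig
      obtain ⟨T, hT⟩ := exists_flatten (a j)
      have := step (h.map T) (hv.map T) (ha.mapFacet T) hmk
        (Or.inl ⟨j, hT, by rw [contacts_map]; exact hj⟩) ih'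
      rw [hull_map, prod0, vol_prod_image] at this
      exact this
    · push Not at hbig
      refine step h hv ha hmk (Or.inr ⟨h5, fun j => le_antisymm (Nat.le_of_lt_succ (hbig j)) ?_⟩) ih'
      have hs := h.span_contacts ha j
      have h1 := finrank_span_finset_le_card (R := ℝ) ((contacts v a j).image v)
      rw [Finset.coe_image, Set.finrank, hs, finrank_top, Module.finrank_pi, Fintype.card_fin] at h1
      exact h1.trans Finset.card_image_le
  rcases le_total m k with hmk | hkm
  · exact main v a h hv ha hmk hN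
  · have h1 := main a v h.symm ha hv hkm (by omega)
    rw [prod0, h.symm.polar_eq] at h1
    rw [prod0, h.polar_eq, mul_comm]
    exact h1

/-- The general Mahler inequality in dimension three. -/
theorem mahler_three {K : Set R3} (hc : IsCompact K) (hv : Convex ℝ K) {z : R3}
    (hz : z ∈ interior K) :
    (4 : ℝ) ^ 4 / 36 ≤
      volume.real K * volume.real {y : R3 | ∀ x ∈ K, ∑ i, (x i - z i) * y i ≤ 1} := by
  have hG : Good ((fun x => x - z) '' K) :=
    { cpt := hc.image (by fun_prop)
      conv := by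
        have := hv.translate (-z)
        simpa [sub_eq_neg_add] using this
      int := by
        have h := (Homeomorph.subRight z).image_interior K
        have : (0 : R3) ∈ Homeomorph.subRight z '' interior K := ⟨z, hz, by simp⟩
        rw [h] at this
        exact this }
  have h := of_pairs (fun m k v a h => bound_pairs _ m k v a h rfl) hG
  have e : polar ((fun x => x - z) '' K) = {y : R3 | ∀ x ∈ K, ∑ i, (x i - z i) * y i ≤ 1} := by
    ext y; simp [polar]
  have hvol : volume.real ((fun x => x - z) '' K) = volume.real K := by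
    simp only [sub_eq_add_neg, image_add_right, measureReal_def, measure_preimage_add_right]
  rw [prod0, e, hvol] at h
  norm_num
  linarith

end Vale.Agent.P248.Three
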