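import Vale.Agent.P248.Body

/-!
# P248: polytopes in space given by vertices and facets at the same time
-/

open MeasureTheory Set
open scoped Pointwise

namespace Vale.Agent.P248.Three

/-- Three-dimensional space. -/
abbrev R3 := Fin 3 → ℝ

/-- The vertical unit vector. -/
def e3 : R3 := Pi.single 2 1

variable {m k : ℕ}

/-- `v` lists points, `a` lists half-spaces `dot a x ≤ 1`, and both give the same body. -/
structure Dual (v : Fin m → R3) (a : Fin k → R3) : Prop where
  good : Good (convexHull ℝ (range v))
  eq : convexHull ℝ (range v) = {x | ∀ j, dot (a j) x ≤ 1}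

/-- No point of a list is in the hull of the others. -/
def Irred (v : Fin m → R3) : Prop := ∀ i, v i ∉ convexHull ℝ (v '' {i}ᶜ)

/-- The points lying on a given plane. -/
noncomputable def contacts (v : Fin m → R3) (a : Fin k → R3) (j : Fin k) : Finset (Fin m) :=
  open Classical in Finset.univ.filter fun i => dot (a j) (v i) = 1

/-- The volume product at the origin. -/
noncomputable def prod0 (K : Set R3) : ℝ := volume.real K * volume.real (polar K)

/-- The part of the polar on one side of the horizontal plane. -/
noncomputable def side (s : ℝ) (K : Set R3) : ℝ := volume.real (polar K ∩ {y | 0 < s * y 2})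

/-- Three bodies form a vertical shadow midpoint. -/
def Shadow (Kr K Ks : Set R3) : Prop := ∀ x ∈ K, ∃ d : ℝ, x + d • e3 ∈ Kr ∧ x - d • e3 ∈ Ks

end Vale.Agent.P248.Three
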